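import Vale.Agent.P275FM.Sf
import Vale.Agent.P275AR.Dia
import Vale.Agent.P275MC.Int
import Vale.Agent.P275HG.Glb
import Vale.Agent.P275ER.Reg
import Vale.Agent.P275M.Sym

/-!
# P275, mixed Hodge block: compact Kaehler manifolds and their diagrams are formal
-/

open scoped Manifold ContDiff Topology Matrix
open Filter Finset
open Vale.Agent.P272.K Vale.Agent.P281Z.Hg Vale.Agent.P275MC Vale.Agent.P275M Vale.Agent.P275HG
open Vale.Agent.P275AR (ty del ty_vl Fam Sys Dia)
open Vale.Agent.P281Z (HolM Mf)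

noncomputable section

namespace Vale.Agent.P275FM

theorem Tri.OK.fin {T : Type*} [AddCommGroup T] [Module ℂ T] {X : Tri T} (h : X.OK)
    (H : Submodule ℂ T) [FiniteDimensional ℂ H]
    (hH : ∀ a, X.A a = 0 → ∃ g ∈ H, ∃ b, a = g + X.A b) : FiniteDimensional ℂ (Coh X.D) := by
  have : FiniteDimensional ℂ (H ⊓ X.Z1 : Submodule ℂ T) :=
    Submodule.finiteDimensional_of_le inf_le_left
  refine Module.Finite.of_surjective (h.cl ∘ₗ Submodule.inclusion (inf_le_right (a := H)))
    fun x => ?_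
  obtain ⟨a, ha, rfl⟩ := h.cl_ind x
  obtain ⟨g, hg, b, rfl⟩ := hH a ha.1
  have h1 := (X.Z1.add_mem_iff_left (h.B1_le (Tri.A_B1 b))).1 ha
  refine ⟨⟨g, hg, h1⟩, (h.cl_congr h1 ha).2 ?_⟩
  rw [sub_add_cancel_left]
  exact neg_mem (Tri.A_B1 b)

theorem glb0 : GLB := glb P275ER.greg symb

section kah
variable {d : ℕ} {M : Type} [TopologicalSpace M] [ChartedSpace (Cm d) M]
  [IsManifold 𝓘(ℂ, Cm d) ω M] {w : Rw d M (Matrix (Fin d) (Fin d) ℂ)} {X : Cx (SF d M) d}
  {K : KP X}

theorem realK_pr (hK : RealK w K) (k : ℕ) : K.pr k = ty d M k :=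
  G3H.op_ext (hK.pr k) (ty_vl k) fun _ _ _ => rfl

variable [T2Space M] [CompactSpace M]

theorem realK_A (hX : RealX X) (hK : RealK w K) : K.A = del d M := by
  simp only [KP.A, del, realX_d hX, realK_pr hK]

theorem realK_Ab (hX : RealX X) (hK : RealK w K) (h : K.KIa) : K.Ab = dlb d M := by
  rw [dlb, ← realK_A hX hK, ← realX_d hX, h.d_eq, add_sub_cancel_left]

variable (hw : IsKahler w)
include hw

/-- smooth Hodge theory with the canonical operators -/
theorem kah_all : DD (del d M) (dlb d M) ∧ (∃ H : Submodule ℂ (SF d M), FiniteDimensional ℂ H ∧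
    (∀ g ∈ H, del d M g = 0 ∧ dlb d M g = 0) ∧
    (∀ a, del d M a = 0 → ∃ g ∈ H, ∃ b, a = g + del d M b) ∧
    (∀ a, dlb d M a = 0 → ∃ g ∈ H, ∃ b, a = g + dlb d M b) ∧
    (∀ a, dd d M a = 0 → ∃ g ∈ H, ∃ b, a = g + dd d M b) ∧
    ∀ g ∈ H, ∀ b, (g = del d M b ∨ g = dlb d M b ∨ g = dd d M b) → g = 0) ∧
    ∀ z, dd d M z = 0 → (∀ y, dd d M y = 0 → Qc d M y z = 0) → ∃ b, z = dd d M b := by
  obtain ⟨X, hX⟩ := exists_X d M
  obtain ⟨K, hK⟩ := exists_K hX hw
  obtain ⟨h1, h2, h3, h4, -⟩ := hodge_of glb0 d M hX hw hK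
  obtain ⟨a1, a2, a3, a4, a5, a6, a7⟩ := dda _ _ X K h1 h2 h3 h4
  rw [← realK_A hX hK, ← realK_Ab hX hK h2, ← realX_d hX, ← realX_Q hX]
  exact ⟨a1, ⟨_, h4.1, fun g hg => ⟨(a2 g hg).1, (a2 g hg).2.1⟩, a3, a4, a5, a6⟩,
    fun z hz h => a7 z ⟨hz, h⟩⟩

/-- **compact Kaehler manifolds** -/
theorem sf_ok : (sf d M).OK := sf_ok' (kah_all hw).1.l1 (kah_all hw).1.l2

theorem sf_fin : FiniteDimensional ℂ (Coh (dd d M)) := by
  obtain ⟨H, h1, -, h2, -⟩ := (kah_all hw).2.1
  exact sf_D (d := d) (M := M) ▸ (sf_ok hw).fin H h2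

/-- Poincare duality -/
theorem sf_nul {z : SF d M} (hz : dd d M z = 0) (h : ∀ y, dd d M y = 0 → Qc d M y z = 0) :
    ∃ b, z = dd d M b := (kah_all hw).2.2 z hz h

end kah

end Vale.Agent.P275FM

namespace Vale.Agent.P275AR

open Vale.Agent.P275FM

namespace Fam

variable {A : Fam}

theorem dlb_apply (u : A.T) (s : A.σ) : (A.d - A.del) u s = dlb _ _ (u s) := rfl

theorem dg_eq (q : ℕ) : A.dg q = LinearMap.piMap fun s => pj (A.n s) (A.S s).X q :=
  LinearMap.ext fun u => funext fun s => dg_apply u s q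

theorem gr_dg : IsGr A.dg where
  mul j k u := funext fun s => by
    rw [dg_apply, dg_apply, gr_pj.mul]
    split_ifs
    · exact (dg_apply u s k).symm
    · rfl
  sum := A.top.imp fun N hN u => by
    simp only [dg]
    rw [gl_sum, gl_congr u (c' := fun _ _ => 1) fun s q hq => by
      rw [Finset.sum_ite_eq, if_pos (mem_range.2 (by have := hN s; omega))], gl_const, one_smul]

theorem gr_cl : IsGr A.cl where
  mul j k u := funext fun s => by
    by_cases h : j = k
    · rw [if_pos h, h, cl_apply, cl_apply]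
      split_ifs <;> rfl
    · rw [if_neg h, cl_apply, cl_apply]
      split_ifs with h1 h2
      · exact (h (h1.symm.trans h2)).elim
      · rfl
      · rfl
  sum := A.top.imp fun N hN u => funext fun s => by
    rw [Finset.sum_apply]
    simp only [cl_apply]
    rw [Finset.sum_ite_eq, if_pos (mem_range.2 (by have := hN s; omega))]

theorem gr_ty : IsGr A.ty where
  mul j k u := funext fun s => (P275FM.gr_ty.mul j k (u s)).trans (by split_ifs <;> rfl)
  sum := A.top.imp fun N hN u => funext fun s => by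
    rw [Finset.sum_apply]
    exact P275FM.gr_ty.sum_flt fun q hq => ty_big (by have := hN s; omega) _

theorem ty_del (k : ℕ) (u : A.T) : A.ty (k + 1) (A.del u) = A.del (A.ty k u) :=
  funext fun _ => P275FM.ty_del k _

theorem ty0_del (u : A.T) : A.ty 0 (A.del u) = 0 := funext fun _ => P275FM.ty0_del _

theorem ty_dlb (k : ℕ) (u : A.T) : A.ty k ((A.d - A.del) u) = (A.d - A.del) (A.ty k u) :=
  funext fun _ => P275FM.ty_dlb k _

/-- a finite dimensional space of representatives of the cohomology of del -/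
theorem Kah.harm (k : A.Kah) : ∃ H : Submodule ℂ A.T, FiniteDimensional ℂ H ∧
    (∀ g ∈ H, A.del g = 0 ∧ (A.d - A.del) g = 0) ∧
    ∀ a, A.del a = 0 → ∃ g ∈ H, ∃ b, a = g + A.del b := by
  choose w hw using k
  choose H h1 h2 h3 _ using fun s => (kah_all (hw s)).2.1
  refine ⟨Submodule.pi Set.univ H, Module.Finite.of_injective
    (LinearMap.pi fun s => (LinearMap.proj s).restrict
      (p := Submodule.pi Set.univ H) (q := H s) fun u hu => hu s trivial)
    fun u v e => Subtype.ext (funext fun s => congrArg Subtype.val (congrFun e s)),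
    fun g hg => ⟨funext fun s => (h2 s _ (hg s trivial)).1,
      funext fun s => (h2 s _ (hg s trivial)).2⟩, fun a ha => ?_⟩
  choose g hg b hb using fun s => h3 s (a s) (congrFun ha s)
  exact ⟨g, fun s _ => hg s, b, funext hb⟩

end Fam

namespace Dia

variable {X : Dia}

/-- **diagrams of compact Kaehler manifolds** -/
theorem OK.tri (h : X.OK) (k : X.Kah) : X.tri.OK := by
  have h1 := (Tri.pi_ok' (Y := fun s => sf (X.n s) (X.S s).X)
    fun s => (k s).elim fun _ => sf_ok).newδ (δ := X.δ) h.δ_δ del_δ (fun u => by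
      change X.d (X.δ u) - X.del (X.δ u) = -X.δ (X.d u - X.del u)
      rw [d_δ, del_δ, map_sub, neg_sub_neg, neg_sub]) fun q u => by
      have h2 := dg_δ q u
      rwa [Fam.dg_eq] at h2
  rw [Dia.tri, show X.dg = _ from funext Fam.dg_eq]
  exact h1

theorem OK.fin (h : X.OK) (k : X.Kah) : FiniteDimensional ℂ (Coh X.D) := by
  obtain ⟨H, h1, -, h2⟩ := k.harm
  exact tri_D (X := X) ▸ (h.tri k).fin H h2

theorem OK.cl_δ (h : X.OK) (p : ℕ) (u : X.T) : X.cl (p + 1) (X.δ u) = X.δ (X.cl p u) := by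
  have := h.gl_δ (fun j _ => if j = p + 1 then 1 else 0) u
  simp only [Nat.add_right_cancel_iff] at this
  exact this

theorem OK.cl0_δ (h : X.OK) (u : X.T) : X.cl 0 (X.δ u) = 0 := by
  have := h.gl_δ (fun j _ => if j = 0 then 1 else 0) u
  simp only [Nat.add_one_ne_zero, if_false, Fam.gl_const, zero_smul, map_zero] at this
  exact this

/-- the columns -/
theorem OK.tri_col (h : X.OK) : X.tri.Col X.cl where
  gr := Fam.gr_cl
  A _ u := Fam.gl_del u _
  B p u := by
    change X.cl p (X.d u - X.del u) = X.d (X.cl p u) - X.del (X.cl p u)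
    rw [map_sub, Fam.cl, Fam.gl_d, Fam.gl_del]
  δ := h.cl_δ
  δ0 := h.cl0_δ
  dg _ _ u := Fam.gl_comm u _ _

theorem tri_tot (m : ℕ) : X.tri.tot X.cl m = X.td m := LinearMap.ext fun u => by
  rw [Tri.tot_apply]
  simp only [tri, Fam.cl, Fam.dg, Fam.gl_gl, Fam.gl_sum]
  refine Fam.gl_congr u fun s q _ => ?_
  simp only [ite_mul, one_mul, zero_mul, Finset.sum_ite_eq, mem_range]
  split_ifs <;> first | rfl | omega

theorem adm_ty (k : ℕ) : Tri.Adm X.tri X.tri (X.ty k) :=
  .of_comm (ch_of_shift Fam.ty_del Fam.ty0_del k) fun u => (ty_δ k u).symm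

end Dia

end Vale.Agent.P275AR
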