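import Mathlib.Algebra.BigOperators.Group.Finset.Basic
import Mathlib.Algebra.Module.Equiv.Basic
import Mathlib.Algebra.Module.LinearMap.End
import Mathlib.Algebra.Module.Submodule.Range
import Mathlib.LinearAlgebra.Complex.Module

/-!
# P275, mixed Hodge block: graded vector spaces, graded maps, strictness
-/

noncomputable section

namespace Vale.Agent.P275FM

open Finset

variable {V V' V'' : Type*} [AddCommGroup V] [Module ℂ V] [AddCommGroup V'] [Module ℂ V']
  [AddCommGroup V''] [Module ℂ V'']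

/-- a finite grading given by its projectors -/
structure IsGr (w : ℕ → Module.End ℂ V) : Prop where
  mul : ∀ j k x, w j (w k x) = if j = k then w k x else 0
  sum : ∃ N, ∀ x, ∑ q ∈ range N, w q x = x

/-- the elements of degree `< n` -/
def flt (w : ℕ → Module.End ℂ V) (n : ℕ) : Submodule ℂ V where
  carrier := {b | ∀ q, n ≤ q → w q b = 0}
  add_mem' := fun ha hb q h => by rw [map_add, ha q h, hb q h, add_zero]
  zero_mem' := fun q _ => map_zero _
  smul_mem' := fun c a ha q h => by rw [map_smul, ha q h, smul_zero]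

/-- maps of degree `s` -/
def Grd (w : ℕ → Module.End ℂ V) (w' : ℕ → Module.End ℂ V') (s : ℤ) (φ : V →ₗ[ℂ] V') : Prop :=
  ∀ (q q' : ℕ) x, (q' : ℤ) ≠ q + s → w' q' (φ (w q x)) = 0

/-- maps of degree at most `s` -/
def Low (w : ℕ → Module.End ℂ V) (w' : ℕ → Module.End ℂ V') (s : ℤ) (φ : V →ₗ[ℂ] V') : Prop :=
  ∀ (q q' : ℕ) x, q + s < (q' : ℤ) → w' q' (φ (w q x)) = 0

variable {w : ℕ → Module.End ℂ V} {w' : ℕ → Module.End ℂ V'} {w'' : ℕ → Module.End ℂ V''}
  {s t : ℤ} {φ ψ : V →ₗ[ℂ] V'} {χ : V' →ₗ[ℂ] V''}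

theorem mem_flt {n : ℕ} {b : V} : b ∈ flt w n ↔ ∀ q, n ≤ q → w q b = 0 := Iff.rfl

theorem flt_mono {m n : ℕ} (h : m ≤ n) : flt w m ≤ flt w n := fun _ hb q hq => hb q (h.trans hq)

namespace IsGr

variable (h : IsGr w)
include h

theorem idem (q : ℕ) (x : V) : w q (w q x) = w q x := (h.mul q q x).trans (if_pos rfl)

theorem orth {j k : ℕ} (e : j ≠ k) (x : V) : w j (w k x) = 0 := (h.mul j k x).trans (if_neg e)

theorem top : ∃ N, ∀ x, x ∈ flt w N := by
  obtain ⟨N, hN⟩ := h.sum
  refine ⟨N, fun b q hq => ?_⟩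
  rw [← hN b, map_sum]
  exact sum_eq_zero fun j hj => h.orth (by have := mem_range.1 hj; omega) _

theorem w_flt {j n : ℕ} (hj : j < n) (a : V) : w j a ∈ flt w n := fun _ hq => h.orth (by omega) _

theorem sum_flt {n : ℕ} {b : V} (hb : b ∈ flt w n) : ∑ q ∈ range n, w q b = b := by
  obtain ⟨N, hN⟩ := h.sum
  have hbN : b ∈ flt w N := fun q hq => by
    rw [← hN b, map_sum]
    exact sum_eq_zero fun j hj => h.orth (by have := mem_range.1 hj; omega) _
  have e1 : ∑ q ∈ range n, w q b = ∑ q ∈ range (n + N), w q b :=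
    sum_subset (range_subset_range.2 (by omega)) fun q _ hq => hb q (by simpa using hq)
  have e2 : ∑ q ∈ range N, w q b = ∑ q ∈ range (n + N), w q b :=
    sum_subset (range_subset_range.2 (by omega)) fun q _ hq => hbN q (by simpa using hq)
  rw [e1, ← e2, hN]

theorem eq_zero {x : V} (hx : ∀ q, w q x = 0) : x = 0 := by
  obtain ⟨N, hN⟩ := h.sum
  rw [← hN x]
  exact sum_eq_zero fun q _ => hx q

theorem ext {x y : V} (e : ∀ q, w q x = w q y) : x = y :=
  sub_eq_zero.1 (h.eq_zero fun q => by rw [map_sub, e, sub_self])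

theorem flt_zero {x : V} (hx : x ∈ flt w 0) : x = 0 := h.eq_zero fun q => hx q (Nat.zero_le q)

/-- linear maps which agree on homogeneous elements agree -/
theorem map_ext {Z : Type*} [AddCommGroup Z] {f g : V →+ Z} (e : ∀ q x, f (w q x) = g (w q x))
    (x : V) : f x = g x := by
  obtain ⟨N, hN⟩ := h.sum
  rw [← hN x, map_sum, map_sum]
  exact sum_congr rfl fun q _ => e q x

theorem map_zero' {f : V →ₗ[ℂ] V'} (e : ∀ q x, f (w q x) = 0) (x : V) : f x = 0 :=
  h.map_ext (f := f.toAddMonoidHom) (g := 0) e x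

/-- an element all of whose other components vanish is homogeneous -/
theorem homog {q : ℕ} {x : V} (hx : ∀ j, j ≠ q → w j x = 0) : w q x = x :=
  h.ext fun j => by
    rw [h.mul]
    split_ifs with e
    · rw [e]
    · rw [hx j e]

theorem mem_ind {p : V → Prop} (h0 : p 0) (ha : ∀ x y, p x → p y → p (x + y)) {x : V}
    (hq : ∀ q, p (w q x)) : p x := by
  obtain ⟨N, hN⟩ := h.sum
  rw [← hN x]
  exact sum_induction _ p ha h0 fun q _ => hq q

/-- transport of a grading -/
theorem tr (e : V ≃ₗ[ℂ] V') : IsGr fun q => e.conj (w q) where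
  mul j k x := by
    simp only [LinearEquiv.conj_apply_apply, LinearEquiv.symm_apply_apply, h.mul]
    split_ifs
    · rfl
    · exact map_zero _
  sum := by
    obtain ⟨N, hN⟩ := h.sum
    refine ⟨N, fun x => ?_⟩
    simp only [LinearEquiv.conj_apply_apply]
    rw [← map_sum, hN, LinearEquiv.apply_symm_apply]

theorem grd_tr (e : V ≃ₗ[ℂ] V') : Grd w (fun q => e.conj (w q)) 0 e := fun q q' x hq => by
  rw [LinearEquiv.conj_apply_apply, LinearEquiv.coe_coe, LinearEquiv.symm_apply_apply,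
    h.orth (by omega), map_zero]

theorem grd_id : Grd w w 0 LinearMap.id := fun _ _ x hq => h.orth (by omega) x

theorem grd_w (k : ℕ) : Grd w w 0 (w k) := fun q q' x hq => by
  rw [h.mul k q]
  split_ifs
  · exact h.orth (by omega) x
  · exact map_zero _

end IsGr

theorem Grd.of_up (h' : IsGr w') {s : ℕ} (e : ∀ q x, w' (q + s) (φ x) = φ (w q x)) :
    Grd w w' s φ := fun q q' x hq => by rw [← e, h'.orth (by omega)]

theorem Grd.of_comm (h' : IsGr w') (e : ∀ q x, w' q (φ x) = φ (w q x)) : Grd w w' 0 φ :=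
  Grd.of_up h' (s := 0) e

theorem Grd.of_down (h : IsGr w) {s : ℕ} (e : ∀ q x, w' q (φ x) = φ (w (q + s) x)) :
    Grd w w' (-s) φ := fun q q' x hq => by rw [e, h.orth (by omega), map_zero]

/-- it is enough to look at homogeneous elements -/
theorem Grd.of_homog (h : IsGr w) (h' : IsGr w')
    (e : ∀ (q : ℕ) x, w q x = x → φ x = 0 ∨ ∃ q' : ℕ, (q' : ℤ) = q + s ∧ w' q' (φ x) = φ x) :
    Grd w w' s φ := fun q q' x hq => by
  rcases e q _ (h.idem q x) with e0 | ⟨k, hk, e1⟩
  · rw [e0, map_zero]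
  · rw [← e1, h'.orth (by omega)]

theorem Grd.low (g : Grd w w' s φ) : Low w w' s φ := fun q q' x hq => g q q' x (by omega)

theorem Low.mono (g : Low w w' s φ) (e : s ≤ t) : Low w w' t φ :=
  fun q q' x hq => g q q' x (by omega)

theorem Grd.comm (g : Grd w w' s φ) (h : IsGr w) (h' : IsGr w') {q q' : ℕ} (e : (q' : ℤ) = q + s)
    (x : V) : w' q' (φ x) = φ (w q x) := by
  have h1 : w' q' (φ (w q x)) = φ (w q x) := h'.homog fun j hj => g q j x (by omega)
  rw [← h1]
  refine h.map_ext (f := (w' q' ∘ₗ φ).toAddMonoidHom) (g := (w' q' ∘ₗ φ ∘ₗ w q).toAddMonoidHom)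
    (fun j y => ?_) x
  show w' q' (φ (w j y)) = w' q' (φ (w q (w j y)))
  rw [h.mul]
  split_ifs with e1
  · rfl
  · rw [map_zero, map_zero, g j q' y (by omega)]

theorem Grd.neg_deg (g : Grd w w' s φ) (h' : IsGr w') {q : ℕ} (e : q + s < 0) (x : V) :
    φ (w q x) = 0 := h'.eq_zero fun j => g q j x (by omega)

theorem Grd.small (g : Grd w w' s φ) (h : IsGr w) {q' : ℕ} (e : (q' : ℤ) < s) (x : V) :
    w' q' (φ x) = 0 := h.map_zero' (f := w' q' ∘ₗ φ) (fun j y => g j q' y (by omega)) x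

theorem Grd.comp (g' : Grd w' w'' t χ) (g : Grd w w' s φ) (h' : IsGr w') :
    Grd w w'' (s + t) (χ ∘ₗ φ) := fun q q'' x hq => by
  obtain ⟨N, hN⟩ := h'.sum
  rw [LinearMap.comp_apply, ← hN (φ (w q x)), map_sum, map_sum]
  refine sum_eq_zero fun j _ => ?_
  by_cases e : (j : ℤ) = q + s
  · exact g' j q'' _ (by omega)
  · rw [g q j x e, map_zero, map_zero]

theorem Low.comp (g' : Low w' w'' t χ) (g : Low w w' s φ) (h' : IsGr w') :
    Low w w'' (s + t) (χ ∘ₗ φ) := fun q q'' x hq => by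
  obtain ⟨N, hN⟩ := h'.sum
  rw [LinearMap.comp_apply, ← hN (φ (w q x)), map_sum, map_sum]
  refine sum_eq_zero fun j _ => ?_
  by_cases e : (j : ℤ) ≤ q + s
  · exact g' j q'' _ (by omega)
  · rw [g q j x (by omega), map_zero, map_zero]

theorem Grd.zero : Grd w w' s 0 := fun _ _ _ _ => map_zero _

theorem Grd.add (g : Grd w w' s φ) (g' : Grd w w' s ψ) : Grd w w' s (φ + ψ) := fun q q' x hq => by
  rw [LinearMap.add_apply, map_add, g q q' x hq, g' q q' x hq, add_zero]

theorem Grd.smul (c : ℂ) (g : Grd w w' s φ) : Grd w w' s (c • φ) := fun q q' x hq => by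
  rw [LinearMap.smul_apply, map_smul, g q q' x hq, smul_zero]

theorem Grd.neg (g : Grd w w' s φ) : Grd w w' s (-φ) := fun q q' x hq => by
  rw [LinearMap.neg_apply, map_neg, g q q' x hq, neg_zero]

theorem Low.zero : Low w w' s 0 := fun _ _ _ _ => map_zero _

theorem Low.add (g : Low w w' s φ) (g' : Low w w' s ψ) : Low w w' s (φ + ψ) := fun q q' x hq => by
  rw [LinearMap.add_apply, map_add, g q q' x hq, g' q q' x hq, add_zero]

theorem Low.smul (c : ℂ) (g : Low w w' s φ) : Low w w' s (c • φ) := fun q q' x hq => by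
  rw [LinearMap.smul_apply, map_smul, g q q' x hq, smul_zero]

theorem Low.neg (g : Low w w' s φ) : Low w w' s (-φ) := fun q q' x hq => by
  rw [LinearMap.neg_apply, map_neg, g q q' x hq, neg_zero]

/-- action on the filtrations -/
theorem Low.map_flt (g : Low w w' s φ) (h : IsGr w) {n n' : ℕ} (e : n + s ≤ n') {x : V}
    (hx : x ∈ flt w n) : φ x ∈ flt w' n' := fun q hq => by
  rw [← h.sum_flt hx, map_sum, map_sum]
  exact sum_eq_zero fun j hj => g j q x (by have := mem_range.1 hj; omega)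

theorem Low.of_flt (h : IsGr w)
    (e : ∀ (n n' : ℕ) x, n + s ≤ n' → x ∈ flt w n → φ x ∈ flt w' n') : Low w w' s φ :=
  fun q q' x hq => e (q + 1) q' _ (by omega) (h.w_flt (Nat.lt_succ_self q) x) q' le_rfl

/-- **strictness** -/
theorem Grd.strict (g : Grd w w' s φ) (h : IsGr w) (h' : IsGr w') {n n' : ℕ} (e : (n' : ℤ) ≤ n + s)
    {x : V} (hx : φ x ∈ flt w' n') : ∃ y ∈ flt w n, φ y = φ x := by
  refine ⟨∑ q ∈ range n, w q x, sum_mem fun q hq => h.w_flt (mem_range.1 hq) x, h'.ext fun j => ?_⟩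
  by_cases hj : (j : ℤ) < s
  · rw [g.small h hj, g.small h hj]
  · obtain ⟨k, hk⟩ : ∃ k : ℕ, (j : ℤ) = k + s := ⟨(j - s).toNat, by omega⟩
    rw [g.comm h h' hk, map_sum]
    by_cases hn : k < n
    · rw [sum_eq_single k (fun i _ hi => h.orth (Ne.symm hi) x)
        (fun hi => absurd (mem_range.2 hn) hi), h.idem, g.comm h h' hk]
    · rw [hx j (by omega), sum_eq_zero fun i hi => h.orth (by have := mem_range.1 hi; omega) x,
        map_zero]

/-- the kernel of a graded map is graded -/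
theorem Grd.ker (g : Grd w w' s φ) (h : IsGr w) (h' : IsGr w') {x : V} (hx : φ x = 0) (q : ℕ) :
    φ (w q x) = 0 := by
  by_cases e : q + s < 0
  · exact g.neg_deg h' e x
  · rw [← g.comm h h' (q' := (q + s).toNat) (by omega), hx, map_zero]

/-- the image of a graded map is graded -/
theorem Grd.range (g : Grd w w' s φ) (h : IsGr w) (h' : IsGr w') (x : V) (q' : ℕ) :
    ∃ y, w' q' (φ x) = φ y := by
  by_cases e : (q' : ℤ) < s
  · exact ⟨0, by rw [g.small h e, map_zero]⟩
  · exact ⟨_, g.comm h h' (q := (q' - s).toNat) (by omega) x⟩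

/-- cancellation: if `χ ∘ φ` and the surjection `φ` are graded then so is `χ` -/
theorem Grd.of_surj (h : IsGr w) (h' : IsGr w') (g : Grd w w' s φ) (hs : Function.Surjective φ)
    (g' : Grd w w'' (s + t) (χ ∘ₗ φ)) : Grd w' w'' t χ := fun q q'' x hq => by
  obtain ⟨y, rfl⟩ := hs x
  by_cases e : (q : ℤ) < s
  · rw [g.small h e, map_zero, map_zero]
  · rw [g.comm h h' (q := (q - s).toNat) (by omega)]
    exact g' _ q'' y (by omega)

/-- cancellation: if `χ ∘ φ` and the injection `χ` are graded then so is `φ` -/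
theorem Grd.of_inj (h' : IsGr w') (h'' : IsGr w'') (g : Grd w' w'' t χ)
    (hi : Function.Injective χ) (g' : Grd w w'' (s + t) (χ ∘ₗ φ)) : Grd w w' s φ :=
  fun q q' x hq => hi (by
    rw [map_zero]
    by_cases e : q' + t < 0
    · exact g.neg_deg h'' e _
    · rw [← g.comm h' h'' (q' := (q' + t).toNat) (by omega)]
      exact g' q _ x (by omega))

/-- the same for maps of degree at most `s` -/
theorem Low.of_surj (h : IsGr w) (h' : IsGr w') (g : Grd w w' s φ) (hs : Function.Surjective φ)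
    (g' : Low w w'' (s + t) (χ ∘ₗ φ)) : Low w' w'' t χ := fun q q'' x hq => by
  obtain ⟨y, rfl⟩ := hs x
  by_cases e : (q : ℤ) < s
  · rw [g.small h e, map_zero, map_zero]
  · rw [g.comm h h' (q := (q - s).toNat) (by omega)]
    exact g' _ q'' y (by omega)

theorem Low.of_inj (h' : IsGr w') (h'' : IsGr w'') (g : Grd w' w'' t χ)
    (hi : Function.Injective χ) (g' : Low w w'' (s + t) (χ ∘ₗ φ)) : Low w w' s φ :=
  fun q q' x hq => hi (by
    rw [map_zero]
    by_cases e : q' + t < 0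
    · exact g.neg_deg h'' e _
    · rw [← g.comm h' h'' (q' := (q' + t).toNat) (by omega)]
      exact g' q _ x (by omega))

/-- the inverse of a graded isomorphism is graded -/
theorem Grd.symm (h : IsGr w) (h' : IsGr w') {e : V ≃ₗ[ℂ] V'} (g : Grd w w' s (e : V →ₗ[ℂ] V')) :
    Grd w' w (-s) (e.symm : V' →ₗ[ℂ] V) :=
  Grd.of_surj h h' g e.surjective fun q q' x hq => by
    rw [LinearMap.comp_apply, LinearEquiv.coe_coe, LinearEquiv.coe_coe,
      LinearEquiv.symm_apply_apply, h.orth (by omega)]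

/-- two gradings for which the identity is graded agree -/
theorem Grd.eq_of_id {u : ℕ → Module.End ℂ V} (h : IsGr w) (h' : IsGr u)
    (g : Grd w u 0 LinearMap.id) : w = u :=
  funext fun q => LinearMap.ext fun x => (g.comm h h' (q := q) (q' := q) (by omega) x).symm

end Vale.Agent.P275FM
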