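import Vale.Agent.P275FM.Coh
import Mathlib.LinearAlgebra.Basis.VectorSpace

/-!
# P275, mixed Hodge block: the long exact sequence
-/

noncomputable section

namespace Vale.Agent.P275FM

variable {T₁ T T₂ S₁ S S₂ : Type*} [AddCommGroup T₁] [Module ℂ T₁] [AddCommGroup T] [Module ℂ T]
  [AddCommGroup T₂] [Module ℂ T₂] [AddCommGroup S₁] [Module ℂ S₁] [AddCommGroup S] [Module ℂ S]
  [AddCommGroup S₂] [Module ℂ S₂]

/-- a short exact sequence of differential modules -/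
structure SES (D₁ : Module.End ℂ T₁) (D : Module.End ℂ T) (D₂ : Module.End ℂ T₂)
    (i : T₁ →ₗ[ℂ] T) (p : T →ₗ[ℂ] T₂) : Prop where
  dd : ∀ a, D (D a) = 0
  di : ∀ a, D (i a) = i (D₁ a)
  dp : ∀ a, D₂ (p a) = p (D a)
  inj : Function.Injective i
  surj : Function.Surjective p
  ex : ∀ a, p a = 0 ↔ ∃ b, a = i b

variable {D₁ : Module.End ℂ T₁} {D : Module.End ℂ T} {D₂ : Module.End ℂ T₂}
  {i : T₁ →ₗ[ℂ] T} {p : T →ₗ[ℂ] T₂}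

/-- `c` is the connecting map -/
def IsBd (D₁ : Module.End ℂ T₁) (D : Module.End ℂ T) (D₂ : Module.End ℂ T₂)
    (i : T₁ →ₗ[ℂ] T) (p : T →ₗ[ℂ] T₂) (c : Coh D₂ →ₗ[ℂ] Coh D₁) : Prop :=
  ∀ z y (hz : D₂ (p z) = 0) (hy : D₁ y = 0), i y = D z → c (Coh.mk (p z) hz) = Coh.mk y hy

namespace SES

variable (h : SES D₁ D D₂ i p)
include h

theorem chi : Ch D₁ D i := Ch.of_comm h.di

theorem chp : Ch D D₂ p := Ch.of_comm h.dp

theorem pi (a : T₁) : p (i a) = 0 := (h.ex _).2 ⟨a, rfl⟩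

theorem dd₁ (a : T₁) : D₁ (D₁ a) = 0 := h.inj (by rw [← h.di, ← h.di, h.dd, map_zero])

theorem dd₂ (a : T₂) : D₂ (D₂ a) = 0 := by
  obtain ⟨b, rfl⟩ := h.surj a
  rw [h.dp, h.dp, h.dd, map_zero]

/-- every class of the quotient is of the form used in `IsBd` -/
theorem rep (x : Coh D₂) : ∃ z y, ∃ (hz : D₂ (p z) = 0) (_ : D₁ y = 0), i y = D z ∧
    x = Coh.mk (p z) hz := by
  obtain ⟨w, hw, rfl⟩ := Coh.ind x
  obtain ⟨z, rfl⟩ := h.surj w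
  obtain ⟨y, hy⟩ := (h.ex (D z)).1 (by rw [← h.dp, hw])
  exact ⟨z, y, hw, h.inj (by rw [← h.di, ← hy, h.dd, map_zero]), hy.symm, rfl⟩

theorem ch_theta {s : T₂ →ₗ[ℂ] T} {θ : T₂ →ₗ[ℂ] T₁} (hθ : ∀ a, i (θ a) = D (s a) - s (D₂ a)) :
    Ch D₂ D₁ θ :=
  Ch.of_anti fun a => h.inj (by
    rw [← h.di, hθ, map_neg, hθ, map_sub, h.dd, h.dd₂, map_zero, zero_sub, sub_zero])

/-- the connecting map of a split sequence -/
theorem isBd_theta {s : T₂ →ₗ[ℂ] T} {θ : T₂ →ₗ[ℂ] T₁} (hs : ∀ a, p (s a) = a)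
    (hθ : ∀ a, i (θ a) = D (s a) - s (D₂ a)) : IsBd D₁ D D₂ i p (Coh.map θ (h.ch_theta hθ)) := by
  intro z y hz hy e
  obtain ⟨b, hb⟩ := (h.ex (s (p z) - z)).1 (by rw [map_sub, hs, sub_self])
  rw [Coh.map_mk]
  refine Coh.mk_eq.2 ⟨b, h.inj ?_⟩
  rw [map_sub, hθ, hz, map_zero, sub_zero, e, ← map_sub, hb, h.di]

theorem exists_theta : ∃ (s : T₂ →ₗ[ℂ] T) (θ : T₂ →ₗ[ℂ] T₁), (∀ a, p (s a) = a) ∧
    ∀ a, i (θ a) = D (s a) - s (D₂ a) := by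
  obtain ⟨s, hs⟩ := p.exists_rightInverse_of_surjective (LinearMap.range_eq_top.2 h.surj)
  obtain ⟨r, hr⟩ := i.exists_leftInverse_of_injective (LinearMap.ker_eq_bot.2 h.inj)
  have hs' : ∀ a, p (s a) = a := LinearMap.congr_fun hs
  refine ⟨s, r ∘ₗ (D ∘ₗ s - s ∘ₗ D₂), hs', fun a => ?_⟩
  obtain ⟨b, hb⟩ := (h.ex (D (s a) - s (D₂ a))).1 (by rw [map_sub, ← h.dp, hs', hs', sub_self])
  show i (r (D (s a) - s (D₂ a))) = _
  rw [hb]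
  exact congrArg i (LinearMap.congr_fun hr b)

theorem exists_bd : ∃ c, IsBd D₁ D D₂ i p c :=
  let ⟨_, _, hs, hθ⟩ := h.exists_theta
  ⟨_, h.isBd_theta hs hθ⟩

/-- the connecting map -/
def bd : Coh D₂ →ₗ[ℂ] Coh D₁ := h.exists_bd.choose

theorem isBd : IsBd D₁ D D₂ i p h.bd := h.exists_bd.choose_spec

theorem bd_unique {c c' : Coh D₂ →ₗ[ℂ] Coh D₁} (hc : IsBd D₁ D D₂ i p c)
    (hc' : IsBd D₁ D D₂ i p c') : c = c' := by
  refine LinearMap.ext fun x => ?_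
  obtain ⟨z, y, hz, hy, e, rfl⟩ := h.rep x
  rw [hc z y hz hy e, hc' z y hz hy e]

theorem bd_eq {s : T₂ →ₗ[ℂ] T} {θ : T₂ →ₗ[ℂ] T₁} (hs : ∀ a, p (s a) = a)
    (hθ : ∀ a, i (θ a) = D (s a) - s (D₂ a)) : h.bd = Coh.map θ (h.ch_theta hθ) :=
  h.bd_unique h.isBd (h.isBd_theta hs hθ)

/-- exactness in the middle -/
theorem ex_mid (x : Coh D) : Coh.map p h.chp x = 0 ↔ ∃ y, x = Coh.map i h.chi y := by
  constructor
  · obtain ⟨z, hz, rfl⟩ := Coh.ind x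
    rw [Coh.map_mk]
    intro h0
    obtain ⟨w, hw⟩ := Coh.mk_eq_zero.1 h0
    obtain ⟨v, rfl⟩ := h.surj w
    obtain ⟨b, hb⟩ := (h.ex (z - D v)).1 (by rw [map_sub, hw, h.dp, sub_self])
    refine ⟨Coh.mk b (h.inj (by rw [← h.di, ← hb, map_sub, hz, h.dd, sub_zero, map_zero])), ?_⟩
    rw [Coh.map_mk]
    exact Coh.mk_eq.2 ⟨v, by rw [← hb, sub_sub_cancel]⟩
  · rintro ⟨y, rfl⟩
    obtain ⟨z, hz, rfl⟩ := Coh.ind y
    rw [Coh.map_mk, Coh.map_mk]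
    exact Coh.mk_eq_zero.2 ⟨0, by rw [map_zero, h.pi]⟩

/-- exactness at the quotient -/
theorem ex_quo (x : Coh D₂) : h.bd x = 0 ↔ ∃ y, x = Coh.map p h.chp y := by
  constructor
  · obtain ⟨z, y, hz, hy, e, rfl⟩ := h.rep x
    rw [h.isBd z y hz hy e]
    intro h0
    obtain ⟨w, rfl⟩ := Coh.mk_eq_zero.1 h0
    refine ⟨Coh.mk (z - i w) (by rw [map_sub, h.di, e, sub_self]), ?_⟩
    rw [Coh.map_mk]
    exact Coh.mk_congr (by rw [map_sub, h.pi, sub_zero]) _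
  · rintro ⟨y, rfl⟩
    obtain ⟨z, hz, rfl⟩ := Coh.ind y
    rw [Coh.map_mk, h.isBd z 0 _ (map_zero _) (by rw [map_zero, hz]), Coh.mk_zero]

/-- exactness at the subcomplex -/
theorem ex_sub (x : Coh D₁) : Coh.map i h.chi x = 0 ↔ ∃ y, x = h.bd y := by
  constructor
  · obtain ⟨y, hy, rfl⟩ := Coh.ind x
    rw [Coh.map_mk]
    intro h0
    obtain ⟨z, hz⟩ := Coh.mk_eq_zero.1 h0
    exact ⟨_, (h.isBd z y (by rw [h.dp, ← hz, h.pi]) hy hz).symm⟩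
  · rintro ⟨y, rfl⟩
    obtain ⟨z, y, hz, hy, e, rfl⟩ := h.rep y
    rw [h.isBd z y hz hy e, Coh.map_mk]
    exact Coh.mk_eq_zero.2 ⟨z, e⟩

variable {E₁ : Module.End ℂ S₁} {E : Module.End ℂ S} {E₂ : Module.End ℂ S₂}
  {j : S₁ →ₗ[ℂ] S} {q : S →ₗ[ℂ] S₂} (h' : SES E₁ E E₂ j q)
  {f₁ : T₁ →ₗ[ℂ] S₁} {f : T →ₗ[ℂ] S} {f₂ : T₂ →ₗ[ℂ] S₂}
  (hf : ∀ a, E (f a) = f (D a)) (hi : ∀ a, f (i a) = j (f₁ a)) (hp : ∀ a, f₂ (p a) = q (f a))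
include h' hf

include hi in
theorem comm₁ (a : T₁) : E₁ (f₁ a) = f₁ (D₁ a) :=
  h'.inj (by rw [← h'.di, ← hi, ← hi, hf, h.di])

include hp in
theorem comm₂ (a : T₂) : E₂ (f₂ a) = f₂ (D₂ a) := by
  obtain ⟨b, rfl⟩ := h.surj a
  rw [hp, h'.dp, hf, h.dp, hp]

include hi hp

/-- naturality of the connecting map -/
theorem bd_nat (c₁ : Ch D₁ E₁ f₁) (c₂ : Ch D₂ E₂ f₂) (x : Coh D₂) :
    h'.bd (Coh.map f₂ c₂ x) = Coh.map f₁ c₁ (h.bd x) := by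
  obtain ⟨z, y, hz, hy, e, rfl⟩ := h.rep x
  rw [h.isBd z y hz hy e, Coh.map_mk, Coh.map_mk, Coh.mk_congr (hp z)]
  exact h'.isBd _ _ _ _ (by rw [← hi, e, hf])

omit h h' hf hp in
theorem nat_i (c₁ : Ch D₁ E₁ f₁) (c : Ch D E f) (ci : Ch D₁ D i) (cj : Ch E₁ E j) (x : Coh D₁) :
    Coh.map f c (Coh.map i ci x) = Coh.map j cj (Coh.map f₁ c₁ x) := by
  obtain ⟨z, hz, rfl⟩ := Coh.ind x
  exact Coh.mk_congr (hi z) _

omit h h' hf hi in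
theorem nat_p (c₂ : Ch D₂ E₂ f₂) (c : Ch D E f) (cp : Ch D D₂ p) (cq : Ch E E₂ q) (x : Coh D) :
    Coh.map f₂ c₂ (Coh.map p cp x) = Coh.map q cq (Coh.map f c x) := by
  obtain ⟨z, hz, rfl⟩ := Coh.ind x
  exact Coh.mk_congr (hp z) _

end SES

/-- the five lemma for exact triangles of vector spaces -/
theorem five {A B C A' B' C' : Type*} [AddCommGroup A] [AddCommGroup B] [AddCommGroup C]
    [AddCommGroup A'] [AddCommGroup B'] [AddCommGroup C'] {u : A →+ B} {v : B →+ C} {w : C →+ A}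
    {u' : A' →+ B'} {v' : B' →+ C'} {w' : C' →+ A'} {a : A →+ A'} {b : B →+ B'} {c : C →+ C'}
    (e1 : ∀ x, v x = 0 ↔ ∃ y, x = u y) (e2 : ∀ x, w x = 0 ↔ ∃ y, x = v y)
    (e3 : ∀ x, u x = 0 ↔ ∃ y, x = w y) (e1' : ∀ x, v' x = 0 ↔ ∃ y, x = u' y)
    (e2' : ∀ x, w' x = 0 ↔ ∃ y, x = v' y) (e3' : ∀ x, u' x = 0 ↔ ∃ y, x = w' y)
    (n1 : ∀ x, b (u x) = u' (a x)) (n2 : ∀ x, c (v x) = v' (b x)) (n3 : ∀ x, a (w x) = w' (c x))
    (ha : Function.Bijective a) (hc : Function.Bijective c) : Function.Bijective b := by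
  constructor
  · rw [injective_iff_map_eq_zero]
    intro x hx
    obtain ⟨y, rfl⟩ := (e1 x).1 (hc.1 (by rw [n2, hx, map_zero, map_zero]))
    obtain ⟨z', hz'⟩ := (e3' (a y)).1 (by rw [← n1, hx])
    obtain ⟨z, rfl⟩ := hc.2 z'
    exact (e3 y).2 ⟨z, ha.1 (by rw [hz', n3])⟩
  · intro x'
    obtain ⟨z, hz⟩ := hc.2 (v' x')
    obtain ⟨x, rfl⟩ := (e2 z).1 (ha.1 (by
      rw [n3, hz, map_zero]
      exact (e2' _).2 ⟨x', rfl⟩))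
    obtain ⟨y', hy'⟩ := (e1' (x' - b x)).1 (by rw [map_sub, ← hz, n2, sub_self])
    obtain ⟨y, rfl⟩ := ha.2 y'
    exact ⟨x + u y, by rw [map_add, n1, ← hy', add_sub_cancel]⟩

namespace SES

variable (h : SES D₁ D D₂ i p) {E₁ : Module.End ℂ S₁} {E : Module.End ℂ S} {E₂ : Module.End ℂ S₂}
  {j : S₁ →ₗ[ℂ] S} {q : S →ₗ[ℂ] S₂} (h' : SES E₁ E E₂ j q)
  {f₁ : T₁ →ₗ[ℂ] S₁} {f : T →ₗ[ℂ] S} {f₂ : T₂ →ₗ[ℂ] S₂}
  (hf : ∀ a, E (f a) = f (D a)) (hi : ∀ a, f (i a) = j (f₁ a)) (hp : ∀ a, f₂ (p a) = q (f a))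
  (c₁ : Ch D₁ E₁ f₁) (c : Ch D E f) (c₂ : Ch D₂ E₂ f₂)
include h h' hf hi hp

theorem five_mid (b₁ : Function.Bijective (Coh.map f₁ c₁))
    (b₂ : Function.Bijective (Coh.map f₂ c₂)) : Function.Bijective (Coh.map f c) :=
  five (u := (Coh.map i h.chi).toAddMonoidHom) (v := (Coh.map p h.chp).toAddMonoidHom)
    (w := h.bd.toAddMonoidHom) (u' := (Coh.map j h'.chi).toAddMonoidHom)
    (v' := (Coh.map q h'.chp).toAddMonoidHom) (w' := h'.bd.toAddMonoidHom)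
    (a := (Coh.map f₁ c₁).toAddMonoidHom) (b := (Coh.map f c).toAddMonoidHom)
    (c := (Coh.map f₂ c₂).toAddMonoidHom) h.ex_mid h.ex_quo h.ex_sub h'.ex_mid h'.ex_quo h'.ex_sub
    (nat_i hi c₁ c h.chi h'.chi) (nat_p hp c₂ c h.chp h'.chp)
    (fun x => (h.bd_nat h' hf hi hp c₁ c₂ x).symm) b₁ b₂

theorem five_quo (b₁ : Function.Bijective (Coh.map f₁ c₁))
    (b : Function.Bijective (Coh.map f c)) : Function.Bijective (Coh.map f₂ c₂) :=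
  five (v := h.bd.toAddMonoidHom) (w := (Coh.map i h.chi).toAddMonoidHom)
    (u := (Coh.map p h.chp).toAddMonoidHom) (w' := (Coh.map j h'.chi).toAddMonoidHom)
    (u' := (Coh.map q h'.chp).toAddMonoidHom) (v' := h'.bd.toAddMonoidHom)
    (c := (Coh.map f₁ c₁).toAddMonoidHom) (a := (Coh.map f c).toAddMonoidHom)
    (b := (Coh.map f₂ c₂).toAddMonoidHom) h.ex_quo h.ex_sub h.ex_mid h'.ex_quo h'.ex_sub h'.ex_mid
    (nat_p hp c₂ c h.chp h'.chp) (fun x => (h.bd_nat h' hf hi hp c₁ c₂ x).symm)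
    (nat_i hi c₁ c h.chi h'.chi) b b₁

theorem five_sub (b : Function.Bijective (Coh.map f c))
    (b₂ : Function.Bijective (Coh.map f₂ c₂)) : Function.Bijective (Coh.map f₁ c₁) :=
  five (u := h.bd.toAddMonoidHom) (v := (Coh.map i h.chi).toAddMonoidHom)
    (w := (Coh.map p h.chp).toAddMonoidHom) (v' := (Coh.map j h'.chi).toAddMonoidHom)
    (w' := (Coh.map q h'.chp).toAddMonoidHom) (u' := h'.bd.toAddMonoidHom)
    (b := (Coh.map f₁ c₁).toAddMonoidHom) (c := (Coh.map f c).toAddMonoidHom)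
    (a := (Coh.map f₂ c₂).toAddMonoidHom) h.ex_sub h.ex_mid h.ex_quo h'.ex_sub h'.ex_mid h'.ex_quo
    (fun x => (h.bd_nat h' hf hi hp c₁ c₂ x).symm) (nat_i hi c₁ c h.chi h'.chi)
    (nat_p hp c₂ c h.chp h'.chp) b₂ b

end SES

end Vale.Agent.P275FM
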