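import Vale.Agent.P275FM.Wt
import Vale.Agent.P275FM.Gr
import Vale.Agent.P275FM.Les
import Mathlib.LinearAlgebra.Pi
import Mathlib.LinearAlgebra.BilinearMap

/-!
# P275, mixed Hodge block: weights as a grading, types, columns, products, pairings
-/

noncomputable section

namespace Vale.Agent.P275FM

open Finset

set_option linter.unusedSectionVars false

variable {T T' T'' : Type*} [AddCommGroup T] [Module ℂ T] [AddCommGroup T'] [Module ℂ T']
  [AddCommGroup T''] [Module ℂ T'']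

/-- bilinear maps which act on cohomology -/
structure Ch2 (D : Module.End ℂ T) (D' : Module.End ℂ T') (D'' : Module.End ℂ T'')
    (μ : T →ₗ[ℂ] T' →ₗ[ℂ] T'') : Prop where
  r : ∀ z, D z = 0 → Ch D' D'' (μ z)
  l : ∀ y z', D' z' = 0 → ∃ y'', μ (D y) z' = D'' y''

section bil

variable {D : Module.End ℂ T} {D' : Module.End ℂ T'} {D'' : Module.End ℂ T''}
  {μ : T →ₗ[ℂ] T' →ₗ[ℂ] T''}

/-- the Leibniz rule gives an action on cohomology; `p` is the parity operator -/
theorem Ch2.of_leib {p : Module.End ℂ T} (hp : ∀ a, p (p a) = a) (hD : ∀ a, D (p a) = -p (D a))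
    (h : ∀ a b, D'' (μ a b) = μ (D a) b + μ (p a) (D' b)) : Ch2 D D' D'' μ where
  r z hz := ⟨fun b hb => by rw [h, hz, hb, map_zero, map_zero, LinearMap.zero_apply, add_zero],
    fun y => ⟨μ (p z) y, by
      rw [h, hD, hz, hp, map_zero, neg_zero, map_zero, LinearMap.zero_apply, zero_add]⟩⟩
  l y z' hz' := ⟨μ y z', by rw [h, hz', map_zero, add_zero]⟩

/-- the induced pairing -/
def Coh.map₂ (μ : T →ₗ[ℂ] T' →ₗ[ℂ] T'') (h : Ch2 D D' D'' μ) :
    Coh D →ₗ[ℂ] Coh D' →ₗ[ℂ] Coh D'' :=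
  Submodule.liftQ _
    { toFun := fun z : LinearMap.ker D => Coh.map (μ z) (h.r z z.2)
      map_add' := fun a b => LinearMap.ext fun x => by
        obtain ⟨z, hz, rfl⟩ := Coh.ind x
        rw [LinearMap.add_apply, Coh.map_mk, Coh.map_mk, Coh.map_mk, ← Coh.mk_add _ _ (by
          rw [map_add, (h.r a a.2).cyc z hz, (h.r b b.2).cyc z hz, add_zero])]
        exact Coh.mk_congr (by rw [Submodule.coe_add, map_add, LinearMap.add_apply]) _
      map_smul' := fun c a => LinearMap.ext fun x => by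
        obtain ⟨z, hz, rfl⟩ := Coh.ind x
        rw [RingHom.id_apply, LinearMap.smul_apply, Coh.map_mk, Coh.map_mk, ← Coh.mk_smul _ _ (by
          rw [map_smul, (h.r a a.2).cyc z hz, smul_zero])]
        exact Coh.mk_congr (by rw [Submodule.coe_smul, map_smul, LinearMap.smul_apply]) _ }
    fun a ⟨y, hy⟩ => LinearMap.ext fun x => by
      obtain ⟨z, hz, rfl⟩ := Coh.ind x
      obtain ⟨y'', h1⟩ := h.l y z hz
      exact (Coh.map_mk (h.r a a.2) z hz).trans
        (Coh.mk_eq_zero.2 ⟨y'', (congrArg (fun t => μ t z) hy).symm.trans h1⟩)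

theorem Coh.map₂_mk (h : Ch2 D D' D'' μ) (z : T) (hz : D z = 0) (z' : T') (hz' : D' z' = 0) :
    Coh.map₂ μ h (Coh.mk z hz) (Coh.mk z' hz') = Coh.mk (μ z z') ((h.r z hz).cyc z' hz') := rfl

theorem Coh.map₂_left (h : Ch2 D D' D'' μ) (z : T) (hz : D z = 0) :
    Coh.map₂ μ h (Coh.mk z hz) = Coh.map (μ z) (h.r z hz) := rfl

end bil

/-- a grading by chain maps induces a grading of the cohomology -/
theorem IsGr.coh {D : Module.End ℂ T} {P : ℕ → Module.End ℂ T} (h : IsGr P)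
    (c : ∀ k, Ch D D (P k)) : IsGr fun k => Coh.map (P k) (c k) where
  mul j k x := by
    obtain ⟨z, hz, rfl⟩ := Coh.ind x
    simp only [Coh.map_mk]
    split_ifs with e
    · exact Coh.mk_congr ((h.mul j k z).trans (if_pos e)) _
    · exact (Coh.mk_congr (h.orth e z) _).trans (Coh.mk_zero _)
  sum := by
    obtain ⟨N, hN⟩ := h.sum
    refine ⟨N, fun x => ?_⟩
    obtain ⟨z, hz, rfl⟩ := Coh.ind x
    simp only [Coh.map_mk]
    rw [← Coh.mk_sum _ _ (by rw [hN, hz])]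
    exact Coh.mk_congr (hN z) _

/-- a grading raised by the differential consists of chain maps -/
theorem ch_of_shift {D : Module.End ℂ T} {P : ℕ → Module.End ℂ T}
    (h1 : ∀ k a, P (k + 1) (D a) = D (P k a)) (h0 : ∀ a, P 0 (D a) = 0) (k : ℕ) :
    Ch D D (P k) where
  cyc z hz := by rw [← h1, hz, map_zero]
  bd y := by
    cases k with
    | zero => exact ⟨0, by rw [h0, map_zero]⟩
    | succ k => exact ⟨_, h1 k y⟩

namespace Tri

variable {X : Tri T} {X' : Tri T'} {X'' : Tri T''}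

theorem lt_eq (n : ℕ) : X.lt n = flt X.dg n := rfl

/-- columns -/
structure Col (X : Tri T) (col : ℕ → Module.End ℂ T) : Prop where
  gr : IsGr col
  A : ∀ p a, col p (X.A a) = X.A (col p a)
  B : ∀ p a, col p (X.B a) = X.B (col p a)
  δ : ∀ p a, col (p + 1) (X.δ a) = X.δ (col p a)
  δ0 : ∀ a, col 0 (X.δ a) = 0
  dg : ∀ p q a, col p (X.dg q a) = X.dg q (col p a)

/-- the projector on the total degree `m` -/
def tot (X : Tri T) (col : ℕ → Module.End ℂ T) (m : ℕ) : Module.End ℂ T :=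
  ∑ p ∈ range (m + 1), col p ∘ₗ X.dg (m - p)

theorem tot_apply (col : ℕ → Module.End ℂ T) (m : ℕ) (a : T) :
    X.tot col m a = ∑ p ∈ range (m + 1), col p (X.dg (m - p) a) := by
  rw [tot, LinearMap.sum_apply]
  rfl

/-- the diagonal operators on a product -/
def pi {ι : Type*} {S : ι → Type*} [∀ i, AddCommGroup (S i)] [∀ i, Module ℂ (S i)]
    (Y : ∀ i, Tri (S i)) (δ : Module.End ℂ (∀ i, S i)) : Tri (∀ i, S i) where
  A := LinearMap.piMap fun i => (Y i).A
  B := LinearMap.piMap fun i => (Y i).B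
  δ := δ
  dg q := LinearMap.piMap fun i => (Y i).dg q

/-- change of the third differential -/
theorem OK.newδ (h : X.OK) {δ : Module.End ℂ T} (δδ : ∀ a, δ (δ a) = 0)
    (Aδ : ∀ a, X.A (δ a) = -δ (X.A a)) (Bδ : ∀ a, X.B (δ a) = -δ (X.B a))
    (dgδ : ∀ q a, X.dg q (δ a) = δ (X.dg q a)) : (⟨X.A, X.B, δ, X.dg⟩ : Tri T).OK :=
  ⟨h.AA, h.BB, δδ, h.AB, Aδ, Bδ, h.dg_mul, h.dg_sum, h.dgA, h.dg0A, h.dgB, h.dg0B, dgδ, h.l1, h.l2⟩

theorem pi_ok {ι : Type*} {S : ι → Type*} [∀ i, AddCommGroup (S i)] [∀ i, Module ℂ (S i)]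
    {Y : ∀ i, Tri (S i)} (h : ∀ i, (Y i).OK) (hN : ∃ N, ∀ i a, a ∈ (Y i).lt N) :
    (pi Y 0).OK where
  AA a := funext fun i => (h i).AA (a i)
  BB a := funext fun i => (h i).BB (a i)
  δδ _ := rfl
  AB a := funext fun i => (h i).AB (a i)
  Aδ a := (map_zero _).trans neg_zero.symm
  Bδ a := (map_zero _).trans neg_zero.symm
  dg_mul j k a := funext fun i => ((h i).dg_mul j k (a i)).trans (by split_ifs <;> rfl)
  dg_sum := by
    obtain ⟨N, hN⟩ := hN
    refine ⟨N, fun a => funext fun i => ?_⟩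
    rw [Finset.sum_apply]
    exact (h i).sum_lt (hN i (a i))
  dgA q a := funext fun i => (h i).dgA q (a i)
  dg0A a := funext fun i => (h i).dg0A (a i)
  dgB q a := funext fun i => (h i).dgB q (a i)
  dg0B a := funext fun i => (h i).dg0B (a i)
  dgδ q a := map_zero _
  l1 b hb := by
    choose c hc using fun i => (h i).l1 (b i) (congrFun hb i)
    exact ⟨c, funext hc⟩
  l2 b hb := by
    choose c hc using fun i => (h i).l2 (b i) (congrFun hb i)
    exact ⟨c, funext hc⟩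

theorem pi_ok' {ι : Type*} [Finite ι] {S : ι → Type*} [∀ i, AddCommGroup (S i)]
    [∀ i, Module ℂ (S i)] {Y : ∀ i, Tri (S i)} (h : ∀ i, (Y i).OK) : (pi Y 0).OK := by
  choose N hN using fun i => (h i).lt_top
  obtain ⟨M, hM⟩ := (Set.finite_range N).bddAbove
  exact pi_ok h ⟨M, fun i a => lt_mono (hM ⟨i, rfl⟩) (hN i a)⟩

namespace OK

variable (h : X.OK)
include h

theorem gr_dg : IsGr X.dg := ⟨h.dg_mul, h.dg_sum⟩

/-- the weights are a grading -/
theorem gr_wt : IsGr h.wt := ⟨h.wt_mul, let ⟨N, h1, _⟩ := h.wt_sum; ⟨N, h1⟩⟩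

theorem mem_flt_wt {n : ℕ} {x : Coh X.D} :
    x ∈ flt h.wt n ↔ ∃ z hz, z ∈ X.lt n ∧ x = Coh.mk z hz := (h.fil_iff n x).symm

theorem wt_mk {q : ℕ} {a e : T} (he : X.D (a + X.A e) = 0) (h1 : X.A a = 0) (h3 : X.dg q a = a) :
    h.wt q (Coh.mk _ he) = Coh.mk _ he := by
  have h4 : a + X.A e ∈ X.Z1 := h.mem_Z1 (by rw [map_add, h1, h.AA, add_zero]) he
  have ha : a ∈ X.Z1 := (X.Z1.add_mem_iff_left (h.B1_le (A_B1 e))).1 h4
  rw [← h.cl_eq ha he, h.wt_cl]
  exact congrArg _ (Subtype.ext h3)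

/-- parity: from a commuting to an anticommuting third differential -/
theorem par_anti {p : Module.End ℂ T} (hp : ∀ q a, p (X.dg q a) = (-1 : ℂ) ^ q • X.dg q a) :
    (∀ a, p (p a) = a) ∧ (∀ a, X.A (p a) = -p (X.A a)) ∧ (∀ a, X.B (p a) = -p (X.B a)) ∧
      (∀ q a, X.dg q (p a) = p (X.dg q a)) ∧ ∀ f : Module.End ℂ T,
        (∀ q a, X.dg q (f a) = f (X.dg q a)) → ∀ a, f (p a) = p (f a) := by
  have hf : ∀ f : Module.End ℂ T, (∀ q a, X.dg q (f a) = f (X.dg q a)) →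
      ∀ a, f (p a) = p (f a) := fun f hf a =>
    h.gr_dg.map_ext (f := (f ∘ₗ p).toAddMonoidHom) (g := (p ∘ₗ f).toAddMonoidHom) (fun q a => by
      show f (p _) = p (f _)
      rw [hp, ← hf, hp, map_smul, hf]) a
  have hs : ∀ f : Module.End ℂ T, (∀ q a, X.dg (q + 1) (f a) = f (X.dg q a)) →
      ∀ a, f (p a) = -p (f a) := fun f hf a =>
    h.gr_dg.map_ext (f := (f ∘ₗ p).toAddMonoidHom) (g := (-(p ∘ₗ f)).toAddMonoidHom) (fun q a => by
      show f (p _) = -p (f _)
      rw [hp, ← hf, hp, map_smul, hf, pow_succ, mul_neg_one, neg_smul, neg_neg]) a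
  refine ⟨fun a => h.gr_dg.map_ext (f := (p ∘ₗ p).toAddMonoidHom) (g := AddMonoidHom.id T)
    (fun q a => ?_) a, hs _ h.dgA, hs _ h.dgB, fun q => hf _ fun j a => ?_, hf⟩
  · show p (p _) = X.dg q a
    rw [hp, map_smul, hp, smul_smul, ← mul_pow, neg_one_mul, neg_neg, one_pow, one_smul]
  · rw [h.dg_mul, h.dg_mul]
    by_cases e : j = q
    · rw [e]
    · rw [if_neg e, if_neg (Ne.symm e)]

theorem of_comm {p δ : Module.End ℂ T} (hp : ∀ q a, p (X.dg q a) = (-1 : ℂ) ^ q • X.dg q a)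
    (δδ : ∀ a, δ (δ a) = 0) (Aδ : ∀ a, X.A (δ a) = δ (X.A a)) (Bδ : ∀ a, X.B (δ a) = δ (X.B a))
    (dgδ : ∀ q a, X.dg q (δ a) = δ (X.dg q a)) : (⟨X.A, X.B, δ ∘ₗ p, X.dg⟩ : Tri T).OK := by
  obtain ⟨-, h2, h3, h4, h5⟩ := h.par_anti hp
  refine h.newδ (fun a => ?_) (fun a => ?_) (fun a => ?_) fun q a => ?_ <;>
    simp only [LinearMap.comp_apply]
  · rw [← h5 δ dgδ, δδ]
  · rw [Aδ, h2, map_neg]
  · rw [Bδ, h3, map_neg]
  · rw [dgδ, h4]

variable (h' : X'.OK)

theorem grd_act {f : T →ₗ[ℂ] T'} (hf : Adm X X' f) {s : ℤ} (g : Grd X.dg X'.dg s f) :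
    Grd h.wt h'.wt s (h.act h' f hf) := fun q q' x hq => by
  obtain ⟨a, ha, rfl⟩ := h.cl_ind x
  rw [h.wt_cl, h.act_cl, h'.wt_cl]
  exact (congrArg _ (Subtype.ext (g q q' a hq))).trans h'.cl.map_zero

/-- **graded admissible chain maps induce graded maps** -/
theorem grd_map {f : T →ₗ[ℂ] T'} (hf : Adm X X' f) (hc : Ch X.D X'.D f) {s : ℤ}
    (g : Grd X.dg X'.dg s f) : Grd h.wt h'.wt s (Coh.map f hc) :=
  h.act_eq_map h' hf hc ▸ h.grd_act h' hf g

theorem grd_mor {s : ℕ} {f : T →ₗ[ℂ] T'} (hf : Mor X X' s f) :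
    Grd h.wt h'.wt s (Coh.map f hf.ch) := Grd.of_up h'.gr_wt (h.wt_map h' hf)

/-- chain maps which respect the filtrations by the form degree -/
theorem low_map {f : T →ₗ[ℂ] T'} (hc : Ch X.D X'.D f) {s : ℤ} (g : Low X.dg X'.dg s f) :
    Low h.wt h'.wt s (Coh.map f hc) :=
  Low.of_flt h.gr_wt fun n n' x e hx => by
    obtain ⟨z, hz, hn, rfl⟩ := h.mem_flt_wt.1 hx
    exact h'.mem_flt_wt.2 ⟨_, _, g.map_flt h.gr_dg e hn, Coh.map_mk hc z hz⟩

/-- further gradings (types) -/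
theorem gr_act {P : ℕ → Module.End ℂ T} (g : IsGr P) (hP : ∀ k, Adm X X (P k)) :
    IsGr fun k => h.act h (P k) (hP k) where
  mul j k x := by
    obtain ⟨a, ha, rfl⟩ := h.cl_ind x
    simp only [h.act_cl]
    split_ifs with e
    · exact congrArg _ (Subtype.ext ((g.mul j k a).trans (if_pos e)))
    · exact (congrArg _ (Subtype.ext (g.orth e a))).trans h.cl.map_zero
  sum := by
    obtain ⟨N, hN⟩ := g.sum
    refine ⟨N, fun x => ?_⟩
    obtain ⟨a, ha, rfl⟩ := h.cl_ind x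
    simp only [h.act_cl]
    rw [← map_sum]
    exact congrArg _ (Subtype.ext ((Submodule.coe_sum _ _ _).trans (hN a)))

/-- **pairings are graded** -/
theorem wt_map₂ (h'' : X''.OK) {μ : T →ₗ[ℂ] T' →ₗ[ℂ] T''} (hD : Ch2 X.D X'.D X''.D μ)
    (hA : Ch2 X.A X'.A X''.A μ) {q q' q'' : ℕ}
    (g : ∀ a a', X.dg q a = a → X'.dg q' a' = a' → X''.dg q'' (μ a a') = μ a a')
    {x : Coh X.D} {x' : Coh X'.D} (hx : h.wt q x = x) (hx' : h'.wt q' x' = x') :
    h''.wt q'' (Coh.map₂ μ hD x x') = Coh.map₂ μ hD x x' := by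
  obtain ⟨a, e, he, a1, -, a2, rfl⟩ := (h.wt_eq_iff q x).1 hx
  obtain ⟨a', e', he', b1, -, b2, rfl⟩ := (h'.wt_eq_iff q' x').1 hx'
  obtain ⟨y, hy⟩ := (hA.r a a1).bd e'
  obtain ⟨y', hy'⟩ := hA.l e (a' + X'.A e') (by rw [map_add, b1, h'.AA, add_zero])
  have e1 : μ (a + X.A e) (a' + X'.A e') = μ a a' + X''.A (y + y') := by
    rw [map_add μ, LinearMap.add_apply, hy', map_add, hy, map_add, add_assoc]
  rw [Coh.map₂_mk, Coh.mk_congr e1]
  exact h''.wt_mk _ ((hA.r a a1).cyc a' b1) (g a a' a2 b2)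

section col

variable {col : ℕ → Module.End ℂ T} (c : X.Col col)
include c

theorem col_tot (p m : ℕ) (a : T) :
    col p (X.tot col m a) = if p ≤ m then col p (X.dg (m - p) a) else 0 := by
  rw [tot_apply, map_sum]
  split_ifs with e
  · rw [sum_eq_single p (fun j _ hj => c.gr.orth (Ne.symm hj) _)
      (fun hj => absurd (mem_range.2 (by omega)) hj), c.gr.idem]
  · exact sum_eq_zero fun j hj => c.gr.orth (by have := mem_range.1 hj; omega) _

theorem tot_cd (m p q : ℕ) (a : T) :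
    X.tot col m (col p (X.dg q a)) = if p + q = m then col p (X.dg q a) else 0 :=
  c.gr.ext fun j => by
    rw [h.col_tot c, ← c.dg, h.dg_mul]
    by_cases e : j = p
    · subst e
      split_ifs <;> first | omega | rfl | simp only [map_zero]
    · rw [c.gr.orth e, ite_self]
      split_ifs
      · rw [c.gr.orth e]
      · rw [map_zero]

theorem cd_ext {Z : Type*} [AddCommGroup Z] {f g : T →+ Z}
    (e : ∀ p q a, f (col p (X.dg q a)) = g (col p (X.dg q a))) (a : T) : f a = g a :=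
  c.gr.map_ext (fun p a => h.gr_dg.map_ext (f := f.comp (col p).toAddMonoidHom)
    (g := g.comp (col p).toAddMonoidHom) (e p) a) a

theorem gr_tot : IsGr (X.tot col) where
  mul j k a := by
    refine h.cd_ext c (f := (X.tot col j ∘ₗ X.tot col k).toAddMonoidHom)
      (g := (if j = k then X.tot col k else 0 : Module.End ℂ T).toAddMonoidHom) (fun p q a => ?_) a
      |>.trans (by split_ifs <;> rfl)
    show X.tot col j (X.tot col k _) = (if j = k then X.tot col k else 0 : Module.End ℂ T) _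
    by_cases e : j = k
    · rw [if_pos e, e, h.tot_cd c]
      split_ifs with e1
      · rw [h.tot_cd c, if_pos e1]
      · rw [map_zero]
    · rw [if_neg e, h.tot_cd c, LinearMap.zero_apply]
      split_ifs with e1
      · rw [h.tot_cd c, if_neg (by omega)]
      · rw [map_zero]
  sum := by
    obtain ⟨N, hN⟩ := h.lt_top
    obtain ⟨M, hM⟩ := c.gr.top
    refine ⟨N + M, fun a => ?_⟩
    refine (LinearMap.sum_apply _ _ a).symm.trans (h.cd_ext c
      (f := (∑ m ∈ range (N + M), X.tot col m).toAddMonoidHom) (g := AddMonoidHom.id T)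
      (fun p q a => ?_) a)
    show (∑ m ∈ range (N + M), X.tot col m) _ = col p (X.dg q a)
    simp only [LinearMap.sum_apply, h.tot_cd c, sum_ite_eq, mem_range]
    split_ifs with e
    · rfl
    · by_cases e1 : M ≤ p
      · rw [hM _ p e1]
      · rw [hN a q (by omega), map_zero]

theorem tot_up {f : Module.End ℂ T} {s t : ℕ} (h1 : ∀ p a, col (p + s) (f a) = f (col p a))
    (h2 : ∀ q a, X.dg (q + t) (f a) = f (X.dg q a)) (m : ℕ) (a : T) :
    X.tot col (m + (s + t)) (f a) = f (X.tot col m a) :=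
  h.cd_ext c (f := (X.tot col (m + (s + t)) ∘ₗ f).toAddMonoidHom)
    (g := (f ∘ₗ X.tot col m).toAddMonoidHom) (fun p q a => by
      show X.tot col _ (f _) = f (X.tot col m _)
      rw [h.tot_cd c, ← h1, ← h2, h.tot_cd c, h2, h1]
      split_ifs <;> first | omega | rfl | simp only [map_zero]) a

theorem totA (m : ℕ) (a : T) : X.tot col (m + 1) (X.A a) = X.A (X.tot col m a) :=
  h.tot_up c (s := 0) (t := 1) c.A h.dgA m a

theorem totB (m : ℕ) (a : T) : X.tot col (m + 1) (X.B a) = X.B (X.tot col m a) :=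
  h.tot_up c (s := 0) (t := 1) c.B h.dgB m a

theorem totδ (m : ℕ) (a : T) : X.tot col (m + 1) (X.δ a) = X.δ (X.tot col m a) :=
  h.tot_up c (s := 1) (t := 0) c.δ h.dgδ m a

theorem totD (m : ℕ) (a : T) : X.tot col (m + 1) (X.D a) = X.D (X.tot col m a) := by
  rw [D_apply, D_apply, map_add, map_add, h.totA c, h.totB c, h.totδ c]

theorem tot0D (a : T) : X.tot col 0 (X.D a) = 0 := by
  rw [tot_apply, sum_range_one, D_apply, map_add (X.dg _), map_add (X.dg _), h.dg0A, h.dg0B,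
    h.dgδ, zero_add, zero_add, c.δ0]

theorem ch_tot (m : ℕ) : Ch X.D X.D (X.tot col m) := ch_of_shift (h.totD c) (h.tot0D c) m

theorem adm_tot (m : ℕ) : Adm X X (X.tot col m) := by
  have hA : ∀ m, Ch X.A X.A (X.tot col m) := ch_of_shift (h.totA c) fun a => by
    rw [tot_apply, sum_range_one, h.dg0A, map_zero]
  constructor
  · rintro a ⟨h1, e, h2⟩
    obtain ⟨y, hy⟩ := (hA (m + 1)).bd e
    exact ⟨(hA m).cyc a h1, y, by rw [← h.totδ c, h2, hy]⟩
  · rintro a ⟨β, e, h1, rfl⟩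
    obtain ⟨y, hy⟩ := (hA m).bd e
    cases m with
    | zero => exact ⟨0, y, map_zero _, by
        rw [map_add, hy, tot_apply, sum_range_one, h.dgδ, c.δ0, map_zero]⟩
    | succ m => exact ⟨_, y, (hA m).cyc β h1, by rw [map_add, hy, h.totδ c]⟩

theorem grd_tot (m : ℕ) : Grd X.dg X.dg 0 (X.tot col m) :=
  Grd.of_comm h.gr_dg fun q a => by
    simp only [tot_apply, map_sum, ← c.dg, h.dg_mul]
    refine sum_congr rfl fun p _ => ?_
    by_cases e : q = m - p
    · rw [e]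
    · rw [if_neg e, if_neg (Ne.symm e)]

/-- the degree projectors commute with the weights -/
theorem wt_tot (m q : ℕ) (x : Coh X.D) :
    h.wt q (Coh.map _ (h.ch_tot c m) x) = Coh.map _ (h.ch_tot c m) (h.wt q x) :=
  (h.grd_map h (h.adm_tot c m) (h.ch_tot c m) (h.grd_tot c m)).comm h.gr_wt h.gr_wt (by omega) x

/-- **the column filtration in degree `m`**: columns `≥ p` are the weights `≤ m - p` -/
theorem col_iff {m : ℕ} (p : ℕ) {x : Coh X.D} (hx : Coh.map _ (h.ch_tot c m) x = x) :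
    (∃ z hz, X.tot col m z = z ∧ (∀ j, j < p → col j z = 0) ∧ x = Coh.mk z hz) ↔
      ∀ q, m < q + p → h.wt q x = 0 := by
  constructor
  · rintro ⟨z, hz, h1, h2, rfl⟩ q hq
    refine (h.mem_flt_wt (n := q)).2 ⟨z, hz, fun k hk => ?_, rfl⟩ q le_rfl
    rw [← h1, tot_apply, map_sum]
    refine sum_eq_zero fun j hj => ?_
    have := mem_range.1 hj
    rw [← c.dg, h.dg_mul]
    split_ifs with e
    · rw [c.dg, h2 j (by omega), map_zero]
    · rw [map_zero]
  · intro hq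
    obtain ⟨z, hz, hn, rfl⟩ := (h.mem_flt_wt (n := m + 1 - p)).1 fun q hq' => hq q (by omega)
    refine ⟨_, _, (h.gr_tot c).idem m z, fun j hj => ?_, hx.symm.trans (Coh.map_mk _ z hz)⟩
    rw [h.col_tot c]
    split_ifs with e
    · rw [hn _ (by omega), map_zero]
    · rfl

/-- the weights in degree `m` are at most `m` -/
theorem wt_le {m q : ℕ} (hq : m < q) {x : Coh X.D} (hx : Coh.map _ (h.ch_tot c m) x = x) :
    h.wt q x = 0 := by
  obtain ⟨z, hz, rfl⟩ := Coh.ind x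
  exact (h.col_iff c 0 hx).1 ⟨_, _, (h.gr_tot c).idem m z, fun j hj => absurd hj (Nat.not_lt_zero j),
    hx.symm.trans (Coh.map_mk _ z hz)⟩ q hq

end col

end OK

end Tri

end Vale.Agent.P275FM
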