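import Vale.Agent.P275AR.One
import Vale.Agent.P275FM.St

/-!
# P275, mixed Hodge block: types, del and delbar on the smooth forms of a complex manifold
-/

open scoped Manifold ContDiff Topology Matrix
open Filter Finset
open Vale.Agent.P272.K Vale.Agent.P272.K.C2 Vale.Agent.P272.K.INT Vale.Agent.P299.IX
  Vale.Agent.P299.IX.Fock Vale.Agent.P281Z.Hg Vale.Agent.P281Z.Hg.G1H Vale.Agent.P281Z.Hg.G2H
  Vale.Agent.P281Z.Hg.Pb1H Vale.Agent.P281Z.Hg.F1bH Vale.Agent.P275MC
open Vale.Agent.P275AR (ty del ty_vl)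
open Vale.Agent.P281Z (HolM)

noncomputable section

namespace Vale.Agent.P275FM

section alg
variable {n m d : ℕ}

theorem dw_ev (w : Fin n → ℕ) (c : ℕ → ℂ) (I : FI n) :
    dw w c *ᵥ ev I = c (∑ l ∈ I, w l) • ev I := funext fun K => by
  rw [dw, Matrix.mulVec_diagonal, Pi.smul_apply, smul_eq_mul]
  by_cases e : K = I <;> simp [ev, e]

theorem dw_lr {w : Fin n → ℕ} {w' : Fin m → ℕ} {J : Matrix (Fin n) (Fin m) ℂ}
    (h : ∀ p l, J p l ≠ 0 → w p = w' l) (c : ℕ → ℂ) : dw w c * lr J = lr J * dw w' c := by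
  have h1 : ∀ l (c : ℕ → ℂ), dw w c * epsV (fun p => J p l) =
      epsV (fun p => J p l) * dw w fun m => c (m + w' l) := fun l c => by
    rw [epsV, Finset.mul_sum, Finset.sum_mul]
    refine Finset.sum_congr rfl fun p _ => ?_
    by_cases e : J p l = 0
    · rw [e, zero_smul, mul_zero, zero_mul]
    · rw [Matrix.mul_smul, Matrix.smul_mul, dw_eps, h p l e]
  refine ext_ev' fun I => ?_
  rw [← Matrix.mulVec_mulVec, ← Matrix.mulVec_mulVec]
  induction I using Finset.induction_on_min generalizing c with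
  | empty => rw [F1aH.lr_ev, dw_ev, dw_ev, Matrix.mulVec_smul, F1aH.lr_ev, Finset.sum_empty,
      Finset.sum_empty]
  | insert i I hi ih =>
    have h2 : lr J *ᵥ ev (insert i I) = epsV (fun p => J p i) *ᵥ (lr J *ᵥ ev I) :=
      qz_ev_insert _ _ hi
    rw [h2, Matrix.mulVec_mulVec, h1, ← Matrix.mulVec_mulVec, ih, dw_ev, dw_ev,
      Matrix.mulVec_smul, Matrix.mulVec_smul, Matrix.mulVec_smul, h2,
      Finset.sum_insert fun h' => lt_irrefl i (hi i h'), add_comm]

variable (d) in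
/-- functions of the holomorphic degree -/
def tm (c : ℕ → ℂ) : Fm d := dw (fun l => if l.val < d then 1 else 0) c

theorem tm_mulVec (c : ℕ → ℂ) (u : Fo d) (I : FI (d + d)) :
    (tm d c *ᵥ u) I = c (P281Z.Hg.tp I) * u I := by
  rw [tm, dw, Matrix.mulVec_diagonal, P281Z.Hg.tp, Finset.card_filter]

theorem tm_hl (c : ℕ → ℂ) (j : Fin d) :
    tm d c * eps (hl j) = eps (hl j) * tm d fun m => c (m + 1) := by
  simp only [tm, dw_eps, hl_lt, if_true]

theorem tm_ah (c : ℕ → ℂ) (j : Fin d) : tm d c * eps (ah j) = eps (ah j) * tm d c := by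
  simp only [tm, dw_eps, ah_lt, if_false, add_zero]

theorem tm_succ : (tm d fun m => ((m + 1 : ℕ) : ℂ)) = tm d (fun m => m) + 1 := ext_mulVec fun u =>
  funext fun I => by
    rw [Matrix.add_mulVec, Matrix.one_mulVec, Pi.add_apply, tm_mulVec, tm_mulVec]
    push_cast
    ring

theorem tm_jc {ψ : Cm n → Cm m} {z : Cm n} (h : DifferentiableAt ℂ ψ z) (c : ℕ → ℂ) :
    tm n c * lr (jc ψ z) = lr (jc ψ z) * tm m c := by
  refine dw_lr (fun p l => ?_) c
  induction p using idx <;> induction l using idx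
  · simp only [hl_lt, implies_true]
  · rw [Kb.jc_ha (h.restrictScalars ℝ), Kb.dzb_hol (differentiableAt_pi.1 h _), star_zero]
    exact fun e => (e rfl).elim
  · rw [Kb.jc_ah, Kb.dzb_hol (differentiableAt_pi.1 h _)]
    exact fun e => (e rfl).elim
  · simp only [ah_lt, implies_true]

theorem tm_wg (u : Fo d) :
    tm d (fun m => m) * wg u = wg (tm d (fun m => m) *ᵥ u) + wg u * tm d fun m => m := by
  induction u using F1aH.fk_ind with
  | h0 => rw [tm, dw_ev, f1a.wg_smul, f1a.wg_ev]; simp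
  | he l u ih =>
    rw [f1a.wg_eps, ← mul_assoc, Matrix.mulVec_mulVec]
    induction l using idx with
    | h j =>
      rw [tm_hl, tm_succ, ← Matrix.mulVec_mulVec, f1a.wg_eps, Matrix.add_mulVec,
        Matrix.one_mulVec, f1a.wg_add, mul_assoc, add_mul, ih, one_mul, mul_assoc, ← mul_add]
      congr 1
      abel
    | h' j => rw [tm_ah, ← Matrix.mulVec_mulVec, f1a.wg_eps, mul_assoc, ih, mul_add, mul_assoc]
  | ha u v h h' =>
    rw [f1a.wg_add, Matrix.mulVec_add, f1a.wg_add, mul_add, add_mul, h, h']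
    abel
  | hs c u h => rw [f1a.wg_smul, Matrix.mulVec_smul, f1a.wg_smul, Matrix.mul_smul,
      Matrix.smul_mul, h, smul_add]

theorem ring_aux {R : Type*} [Ring R] {N D A : R} (hA : A = N * D - D * N)
    (hN : N * A = A * N + A) (hD : D * D = 0) : A * D + D * A = 0 ∧ A * A + A * A = 0 := by
  have h1 : A * D + D * A = 0 := by
    rw [hA, show (N * D - D * N) * D + D * (N * D - D * N) = N * (D * D) - D * D * N by
      noncomm_ring, hD, mul_zero, zero_mul, sub_zero]
  refine ⟨h1, ?_⟩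
  have h2 : A * (N * D - D * N) + (N * D - D * N) * A = N * (A * D + D * A) - (A * D + D * A) * N -
      ((N * A - A * N) * D + D * (N * A - A * N)) := by noncomm_ring
  rw [← hA, hN, add_sub_cancel_left, h1, mul_zero, zero_mul, sub_zero, sub_zero] at h2
  exact h2

end alg

variable {d : ℕ} {M : Type} [TopologicalSpace M] [ChartedSpace (Cm d) M]
  [IsManifold 𝓘(ℂ, Cm d) ω M] {e : Chart d M} {x : M}

theorem cov_tm (c : ℕ → ℂ) : CovF (d := d) (M := M) fun _ _ => tm d c :=
  ⟨fun _ _ _ => MC_const _ _, fun _ _ _ h h' =>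
    tm_jc ((transition_contDiffAt h h').differentiableAt (by simp)) c⟩

variable (d M) in
/-- functions of the holomorphic degree -/
def tf (c : ℕ → ℂ) : Module.End ℂ (SF d M) := opr _ (cov_tm c)

variable (d M) in
/-- the holomorphic degree -/
def nt : Module.End ℂ (SF d M) := tf d M fun m => m

variable (d M) in
/-- delbar -/
def dlb : Module.End ℂ (SF d M) := dd d M - del d M

variable (d M) in
/-- the smooth forms with del and delbar -/
def sf : Tri (SF d M) := ⟨del d M, dlb d M, 0, fun q => pj d M q⟩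

variable (d M) in
/-- the exterior product as a bilinear map -/
def wdL : SF d M →ₗ[ℂ] SF d M →ₗ[ℂ] SF d M where
  toFun := wd
  map_add' u v := LinearMap.ext (wd_add u v)
  map_smul' c u := LinearMap.ext (wd_smul c u)

theorem tf_vl (c : ℕ → ℂ) (u : SF d M) (h : At e x) :
    vl (tf d M c u) e (e x) = tm d c *ᵥ vl u e (e x) := opr_vl (cov_tm c) u e x h

theorem tf_vl' (c : ℕ → ℂ) (u : SF d M) (h : At e x) (I : FI (d + d)) :
    vl (tf d M c u) e (e x) I = c (P281Z.Hg.tp I) * vl u e (e x) I := by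
  rw [tf_vl c u h, tm_mulVec]

theorem ty_eq (k : ℕ) : ty d M k = tf d M fun m => if m = k then 1 else 0 :=
  LinearMap.ext fun u => ext' fun e x h => by
    rw [ty_vl k u e x h, pm_dw]
    exact (tf_vl _ u h).symm

theorem del_add_dlb (u : SF d M) : del d M u + dlb d M u = dd d M u := by
  rw [dlb, LinearMap.sub_apply, add_sub_cancel]

theorem sf_D : (sf d M).D = dd d M := LinearMap.ext fun u => by
  rw [Tri.D_apply, ← del_add_dlb]
  exact add_zero _

theorem dd_tf (c : ℕ → ℂ) (u : SF d M) (h : At e x) : vl (dd d M (tf d M c u)) e (e x) =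
    ∑ l, (eps l * tm d c) *ᵥ Dv l (vl u e) (e x) := by
  rw [dd_vl _ h, ka.congr (v := fun z => tm d c *ᵥ vl u e z)
    (ev_at h (.of_forall fun _ hy => tf_vl c u hy))]
  simp only [dT, ka.Dv_mul _ _ (dif u h), Matrix.mulVec_mulVec]

theorem del_vl (u : SF d M) (h : At e x) :
    vl (del d M u) e (e x) = ∑ j, eps (hl j) *ᵥ Dv (hl j) (vl u e) (e x) := by
  have h1 : ∀ k, vl ((ty d M (k + 1) * dd d M * ty d M k) u) e (e x) =
      ∑ j, (eps (hl j) * pm d k) *ᵥ Dv (hl j) (vl u e) (e x) := fun k => by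
    rw [Module.End.mul_apply, Module.End.mul_apply, ty_vl _ _ e x h, ty_eq k, dd_tf _ _ h,
      Matrix.mulVec_sum, Fin.sum_univ_add, tm, ← pm_dw]
    refine (congrArg₂ (· + ·) (Finset.sum_congr rfl fun j _ => ?_)
      (Finset.sum_eq_zero fun j _ => ?_)).trans (add_zero _)
    · rw [Matrix.mulVec_mulVec, ← mul_assoc]
      refine congrArg (· *ᵥ _) ((congrArg (· * _) (f1b.pm_hl d k j)).trans ?_)
      rw [mul_assoc, f1b.pm_mul, if_pos rfl]
    · rw [Matrix.mulVec_mulVec, ← mul_assoc]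
      refine (congrArg (· *ᵥ _) ((congrArg (· * _) (f1b.pm_ah d _ j)).trans ?_)).trans
        (Matrix.zero_mulVec _)
      rw [mul_assoc, f1b.pm_mul, if_neg k.add_one_ne_self, mul_zero]
  rw [del, LinearMap.sum_apply, vl_sum]
  simp only [h1]
  rw [Finset.sum_comm]
  simp only [← Matrix.sum_mulVec, ← Finset.mul_sum, f1b.pm_sum, mul_one]

theorem del_apply (u : SF d M) : del d M u = nt d M (dd d M u) - dd d M (nt d M u) :=
  ext' fun e x h => Eq.symm (by
    rw [del_vl u h, vl_sub, nt, tf_vl _ _ h, dd_tf _ _ h, dd_vl _ h, dT, Matrix.mulVec_sum,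
      ← Finset.sum_sub_distrib, Fin.sum_univ_add]
    refine (congrArg₂ (· + ·) (Finset.sum_congr rfl fun j _ => ?_)
      (Finset.sum_eq_zero fun j _ => ?_)).trans (add_zero _)
    · rw [Matrix.mulVec_mulVec, ← Matrix.sub_mulVec]
      refine congrArg (· *ᵥ _) ?_
      refine (congrArg (· - _) (tm_hl _ j)).trans ?_
      rw [tm_succ, mul_add, mul_one]
      exact add_sub_cancel_left _ _
    · rw [Matrix.mulVec_mulVec, sub_eq_zero]
      exact congrArg (· *ᵥ _) (tm_ah _ j))

theorem dlb_vl (u : SF d M) (h : At e x) :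
    vl (dlb d M u) e (e x) = ∑ j, eps (ah j) *ᵥ Dv (ah j) (vl u e) (e x) := by
  rw [dlb, LinearMap.sub_apply, vl_sub, del_vl u h, dd_vl u h, dT, Fin.sum_univ_add]
  exact add_sub_cancel_left _ _

theorem Dv_tf (c : ℕ → ℂ) (u : SF d M) (h : At e x) (l : Fin (d + d)) :
    Dv l (vl (tf d M c u) e) (e x) = tm d c *ᵥ Dv l (vl u e) (e x) := by
  rw [← ka.Dv_mul _ _ (dif u h)]
  have h1 : vl (tf d M c u) e =ᶠ[𝓝 (e x)] fun z => tm d c *ᵥ vl u e z :=
    ev_at h (.of_forall fun _ hy => tf_vl c u hy)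
  funext I
  have h2 : (fun y => vl (tf d M c u) e y I) =ᶠ[𝓝 (e x)] fun z => (tm d c *ᵥ vl u e z) I :=
    h1.mono fun _ hz => congrFun hz I
  induction l using idx with
  | h j => simp only [Dv, ka.dr_hl, dz, h2.fderiv_eq]
  | h' j => simp only [Dv, ka.dr_ah, dzb, h2.fderiv_eq]

theorem tf_del (c : ℕ → ℂ) (u : SF d M) :
    tf d M c (del d M u) = del d M (tf d M (fun m => c (m + 1)) u) := ext' fun e x h => by
  rw [tf_vl _ _ h, del_vl _ h, del_vl _ h, Matrix.mulVec_sum]
  simp only [Dv_tf _ _ h, Matrix.mulVec_mulVec, tm_hl]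

theorem tf_dlb (c : ℕ → ℂ) (u : SF d M) : tf d M c (dlb d M u) = dlb d M (tf d M c u) :=
  ext' fun e x h => by
    rw [tf_vl _ _ h, dlb_vl _ h, dlb_vl _ h, Matrix.mulVec_sum]
    simp only [Dv_tf _ _ h, Matrix.mulVec_mulVec, tm_ah]

theorem tf_tf (c c' : ℕ → ℂ) (u : SF d M) :
    tf d M c (tf d M c' u) = tf d M (fun m => c m * c' m) u :=
  ext' fun e x h => funext fun I => by rw [tf_vl' _ _ h, tf_vl' _ _ h, tf_vl' _ _ h, mul_assoc]

theorem tf_zero (u : SF d M) : tf d M (fun _ => 0) u = 0 :=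
  ext' fun e x h => funext fun I => by rw [tf_vl' _ _ h, zero_mul]; rfl

theorem tf_pj (c : ℕ → ℂ) (k : ℤ) (u : SF d M) : tf d M c (pj d M k u) = pj d M k (tf d M c u) :=
  ext' fun e x h => funext fun I => by
    rw [tf_vl' _ _ h, pj_vl _ _ h, pj_vl _ _ h, tf_vl' _ _ h, mul_ite, mul_zero]

theorem tf_pr (c : ℕ → ℂ) (u : SF d M) : tf d M c (pr d M u) = pr d M (tf d M c u) :=
  ext' fun e x h => funext fun I => by
    rw [tf_vl' _ _ h, pr_vl _ h, pr_vl _ h, par_mulVec, par_mulVec, tf_vl' _ _ h, mul_left_comm]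

theorem nt_del (u : SF d M) : nt d M (del d M u) = del d M (nt d M u) + del d M u := by
  rw [nt, tf_del, ← map_add]
  refine congrArg _ (ext' fun e x h => ?_)
  rw [vl_add, tf_vl _ _ h, tf_vl _ _ h, tm_succ, Matrix.add_mulVec, Matrix.one_mulVec]

theorem ty_del (k : ℕ) (u : SF d M) : ty d M (k + 1) (del d M u) = del d M (ty d M k u) := by
  simp only [ty_eq, tf_del, add_left_inj]

theorem ty0_del (u : SF d M) : ty d M 0 (del d M u) = 0 := by
  simp only [ty_eq, tf_del, Nat.add_one_ne_zero, if_false, tf_zero, map_zero]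

theorem ty_dlb (k : ℕ) (u : SF d M) : ty d M k (dlb d M u) = dlb d M (ty d M k u) := by
  simp only [ty_eq, tf_dlb]

theorem ty_pj (k : ℕ) (q : ℤ) (u : SF d M) : ty d M k (pj d M q u) = pj d M q (ty d M k u) := by
  simp only [ty_eq, tf_pj]

theorem ty_sum (u : SF d M) : ∑ k ∈ range (d + 1), ty d M k u = u :=
  ext' fun e x h => by
    simp only [vl_sum, ty_vl _ u e x h, ← Matrix.sum_mulVec, f1b.pm_sum, Matrix.one_mulVec]

theorem gr_ty : IsGr (ty d M) where
  mul j k u := ext' fun e x h => by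
    rw [ty_vl j _ e x h, ty_vl k _ e x h, Matrix.mulVec_mulVec, f1b.pm_mul]
    split_ifs
    · exact (ty_vl k _ e x h).symm
    · exact Matrix.zero_mulVec _
  sum := ⟨_, ty_sum⟩

omit [IsManifold 𝓘(ℂ, Cm d) ω M] in
theorem gr_pj : IsGr fun q : ℕ => pj d M q where
  mul j k u := by
    split_ifs with h
    · rw [h, pj_eq (pj_mem _ u)]
    · exact pj_ne (pj_mem _ u) (by omega)
  sum := ⟨_, pj_sum⟩

theorem ty_eq_iff {k : ℕ} {u : SF d M} : ty d M k u = u ↔ nt d M u = (k : ℂ) • u := by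
  refine ⟨fun h => ?_, fun h => ext' fun e x he => funext fun I => ?_⟩
  · rw [← h, ty_eq, nt, tf_tf]
    refine ext' fun e x he => funext fun I => ?_
    rw [vl_smul, Pi.smul_apply, tf_vl' _ _ he, tf_vl' _ _ he, smul_eq_mul]
    split_ifs with h1
    · rw [h1, mul_assoc]
    · simp
  · have h1 := tf_vl' (fun m => m) u he I
    rw [← nt, h, vl_smul, Pi.smul_apply, smul_eq_mul] at h1
    rw [ty_eq, tf_vl' _ _ he]
    split_ifs with h2
    · exact one_mul _
    · rw [zero_mul]
      exact ((mul_eq_mul_right_iff.1 h1).resolve_left fun h3 => h2 (Nat.cast_injective h3).symm).symm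

theorem nt_eq : nt d M = ∑ k ∈ range (d + 1), (k : ℂ) • ty d M k := LinearMap.ext fun u => by
  conv_lhs => rw [← ty_sum u, map_sum]
  rw [LinearMap.sum_apply]
  exact Finset.sum_congr rfl fun k _ => ty_eq_iff.1 (gr_ty.idem k u)

theorem del_aux : del d M * dd d M + dd d M * del d M = 0 ∧
    del d M * del d M + del d M * del d M = 0 :=
  ring_aux (LinearMap.ext del_apply) (LinearMap.ext nt_del) (LinearMap.ext dd_dd)

theorem del_del (u : SF d M) : del d M (del d M u) = 0 := by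
  have h := LinearMap.congr_fun (del_aux (d := d) (M := M)).2 u
  rw [LinearMap.add_apply, ← two_smul ℂ] at h
  exact (smul_eq_zero.1 h).resolve_left two_ne_zero

theorem del_dd (u : SF d M) : del d M (dd d M u) = -dd d M (del d M u) :=
  eq_neg_of_add_eq_zero_left (LinearMap.congr_fun (del_aux (d := d) (M := M)).1 u)

theorem del_dlb (u : SF d M) : del d M (dlb d M u) = -dlb d M (del d M u) := by
  simp only [dlb, LinearMap.sub_apply, map_sub, del_del, del_dd, sub_zero]

theorem dlb_dlb (u : SF d M) : dlb d M (dlb d M u) = 0 := by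
  simp only [dlb, LinearMap.sub_apply, map_sub, del_del, del_dd, dd_dd, sub_zero, zero_sub,
    neg_neg, sub_self]

theorem pj_del (k : ℤ) (u : SF d M) : pj d M (k + 1) (del d M u) = del d M (pj d M k u) := by
  simp only [del_apply, map_sub, nt, ← tf_pj, pj_dd]

theorem pj_dlb (k : ℤ) (u : SF d M) : pj d M (k + 1) (dlb d M u) = dlb d M (pj d M k u) := by
  simp only [dlb, LinearMap.sub_apply, map_sub, pj_del, pj_dd]

omit [IsManifold 𝓘(ℂ, Cm d) ω M] in
theorem pj_neg_one (u : SF d M) : pj d M (-1) u = 0 :=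
  (Submodule.mem_bot ℂ).1 (Dg_neg (d := d) (M := M) (k := -1) (by omega) ▸ pj_mem _ u)

omit [IsManifold 𝓘(ℂ, Cm d) ω M] in
theorem pr_pr (u : SF d M) : pr d M (pr d M u) = u := ext' fun e x h => funext fun I => by
  rw [pr_vl _ h, pr_vl _ h, par_mulVec, par_mulVec, ← mul_assoc, ← mul_pow, neg_one_mul, neg_neg,
    one_pow, one_mul]

omit [IsManifold 𝓘(ℂ, Cm d) ω M] in
theorem pr_pj (q : ℕ) (u : SF d M) : pr d M (pj d M q u) = (-1 : ℂ) ^ q • pj d M q u := by
  rw [pr_Dg (pj_mem _ u), Int.cast_negOnePow_natCast]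

theorem dd_pr (u : SF d M) : dd d M (pr d M u) = -pr d M (dd d M u) :=
  gr_pj.map_ext (f := (dd d M ∘ₗ pr d M).toAddMonoidHom) (g := (-(pr d M ∘ₗ dd d M)).toAddMonoidHom)
    (fun q a => by
      show dd d M (pr d M _) = -pr d M (dd d M _)
      rw [pr_pj, map_smul, ← pj_dd, ← Nat.cast_succ, pr_pj, pow_succ, mul_neg_one, neg_smul,
        neg_neg]) u

theorem del_pr (u : SF d M) : del d M (pr d M u) = -pr d M (del d M u) := by
  simp only [del_apply, nt, tf_pr, dd_pr, map_neg, map_sub, neg_sub_neg, neg_sub]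

theorem dlb_pr (u : SF d M) : dlb d M (pr d M u) = -pr d M (dlb d M u) := by
  simp only [dlb, LinearMap.sub_apply, del_pr, dd_pr, map_sub, neg_sub_neg, neg_sub]

theorem nt_wd (y u : SF d M) : nt d M (wd y u) = wd (nt d M y) u + wd y (nt d M u) :=
  ext' fun e x h => by
    rw [vl_add, nt, tf_vl _ _ h, wd_vl _ _ h, wd_vl _ _ h, wd_vl _ _ h, tf_vl _ _ h, tf_vl _ _ h,
      Matrix.mulVec_mulVec, tm_wg, Matrix.add_mulVec, Matrix.mulVec_mulVec]

omit [IsManifold 𝓘(ℂ, Cm d) ω M] in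
theorem wd_sub (u v w : SF d M) : wd (u - v) w = wd u w - wd v w :=
  LinearMap.congr_fun ((wdL d M).map_sub u v) w

theorem del_wd (y u : SF d M) :
    del d M (wd y u) = wd (del d M y) u + wd (pr d M y) (del d M u) := by
  simp only [del_apply, dd_wd, nt_wd, map_add, map_sub, wd_sub]
  rw [nt, tf_pr]
  abel

theorem dlb_wd (y u : SF d M) :
    dlb d M (wd y u) = wd (dlb d M y) u + wd (pr d M y) (dlb d M u) := by
  simp only [dlb, LinearMap.sub_apply, dd_wd, del_wd, map_sub, wd_sub]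
  abel

theorem ty_wd {j k : ℕ} {y u : SF d M} (hy : ty d M j y = y) (hu : ty d M k u = u) :
    ty d M (j + k) (wd y u) = wd y u := by
  rw [ty_eq_iff] at hy hu ⊢
  rw [nt_wd, hy, hu, wd_smul, map_smul, Nat.cast_add, add_smul]

theorem ch2_dd : Ch2 (dd d M) (dd d M) (dd d M) (wdL d M) := .of_leib pr_pr dd_pr dd_wd

theorem ch2_del : Ch2 (del d M) (del d M) (del d M) (wdL d M) := .of_leib pr_pr del_pr del_wd

theorem adm_ty (k : ℕ) : Tri.Adm (sf d M) (sf d M) (ty d M k) :=
  .of_comm (ch_of_shift ty_del ty0_del k) fun _ => (map_zero _).symm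

omit [IsManifold 𝓘(ℂ, Cm d) ω M] in
theorem pj_wd {s : ℕ} {y : SF d M} (hy : y ∈ Dg d M s) (q : ℕ) (u : SF d M) :
    pj d M (q + s : ℕ) (wd y u) = wd y (pj d M q u) :=
  Grd.comm (w := fun q : ℕ => pj d M q) (w' := fun q : ℕ => pj d M q) (s := s)
    (fun j _ a h => pj_ne (wd_Dg hy (pj_mem j a)) (by omega)) gr_pj gr_pj (by omega) u

/-- multiplication by a homogeneous form killed by del and delbar -/
theorem mor_wd {s : ℕ} {y : SF d M} (hy : y ∈ Dg d M s) (h1 : del d M y = 0)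
    (h2 : dlb d M y = 0) : Tri.Mor (sf d M) (sf d M) s (wd y) where
  sg := ⟨(-1) ^ s, pow_ne_zero _ (by simp), fun a => by
      show del d M _ = _ • wd y (del d M a)
      rw [del_wd, h1, wd_zero, zero_add, pr_Dg hy, wd_smul, Int.cast_negOnePow_natCast],
    fun a => by
      show dlb d M _ = _ • wd y (dlb d M a)
      rw [dlb_wd, h2, wd_zero, zero_add, pr_Dg hy, wd_smul, Int.cast_negOnePow_natCast],
    fun _ => by
      show 0 = _ • wd y 0
      rw [map_zero, smul_zero]⟩
  dg := pj_wd hy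

/-- closed forms of pure type are killed by del and delbar -/
theorem del_of_ty {k : ℕ} {y : SF d M} (hy : ty d M k y = y) (h : dd d M y = 0) :
    del d M y = 0 ∧ dlb d M y = 0 := by
  have h1 : del d M y = 0 := by
    rw [del_apply, ty_eq_iff.1 hy, map_smul, h, map_zero, smul_zero, sub_zero]
  exact ⟨h1, by rw [dlb, LinearMap.sub_apply, h, h1, sub_zero]⟩

theorem sf_ok' (l1 : ∀ b, del d M (dlb d M b) = 0 → ∃ c, dlb d M b = del d M (dlb d M c))
    (l2 : ∀ b, dlb d M (del d M b) = 0 → ∃ c, del d M b = del d M (dlb d M c)) : (sf d M).OK where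
  AA := del_del
  BB := dlb_dlb
  δδ _ := LinearMap.zero_apply _
  AB := del_dlb
  Aδ _ := (map_zero (del d M)).trans neg_zero.symm
  Bδ _ := (map_zero (dlb d M)).trans neg_zero.symm
  dg_mul := gr_pj.mul
  dg_sum := gr_pj.sum
  dgA q a := by
    have h := pj_del q a
    rwa [← Nat.cast_succ] at h
  dg0A a := by
    have h := pj_del (-1) a
    rwa [pj_neg_one, map_zero, neg_add_cancel, ← Nat.cast_zero] at h
  dgB q a := by
    have h := pj_dlb q a
    rwa [← Nat.cast_succ] at h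
  dg0B a := by
    have h := pj_dlb (-1) a
    rwa [pj_neg_one, map_zero, neg_add_cancel, ← Nat.cast_zero] at h
  dgδ q _ := map_zero (pj d M q)
  l1 := l1
  l2 := l2

section hol
variable {d' : ℕ} {M' : Type} [TopologicalSpace M'] [ChartedSpace (Cm d') M']
  [IsManifold 𝓘(ℂ, Cm d') ω M'] {f : M → M'} (hf : HolM d d' f) (hs : Smo d d' f)
include hf

theorem pb_tf (c : ℕ → ℂ) (a : SF d' M') : pb hs (tf d' M' c a) = tf d M c (pb hs a) :=
  ext' fun e x hx => by
    have h1 : ContDiffAt ℂ ω (fun z => chartAt (Cm d') (f x) (f (e.symm z))) (e x) := by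
      rw [← contMDiffAt_iff_contDiffAt]
      refine ContMDiffAt.comp (g := fun y => chartAt (Cm d') (f x) (f y)) (e x) ?_
        (chart_symm_contMDiffAt hx.1 (e.map_source hx.2))
      rw [e.left_inv hx.2]
      exact (chart_contMDiffAt (ca _)).comp x (hf x)
    rw [pb_vl hs _ e _ x hx (ca _), tf_vl _ a (ca _), tf_vl _ _ hx, pb_vl hs _ e _ x hx (ca _),
      Matrix.mulVec_mulVec, Matrix.mulVec_mulVec, tm_jc (h1.differentiableAt (by simp))]

theorem pb_dlb (a : SF d' M') : pb hs (dlb d' M' a) = dlb d M (pb hs a) := by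
  simp only [dlb, LinearMap.sub_apply, map_sub, P275AR.pb_del hf, pb_dd]

/-- **the pull-back along a holomorphic map is a morphism** -/
theorem mor_pb : Tri.Mor (sf d' M') (sf d M) 0 (pb hs) where
  sg := ⟨1, one_ne_zero, fun a => (P275AR.pb_del hf a).symm.trans (one_smul _ _).symm,
    fun a => (pb_dlb hf hs a).symm.trans (one_smul _ _).symm,
    fun _ => (map_zero _).symm.trans (one_smul _ _).symm⟩
  dg q a := (pb_pj hs q a).symm

end hol

end Vale.Agent.P275FM
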