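import Mathlib.LinearAlgebra.Quotient.Basic
import Mathlib.LinearAlgebra.Complex.Module

/-!
# P275, mixed Hodge block: cohomology of an endomorphism
-/

noncomputable section

namespace Vale.Agent.P275FM

variable {T T' T'' : Type*} [AddCommGroup T] [Module ℂ T] [AddCommGroup T'] [Module ℂ T']
  [AddCommGroup T''] [Module ℂ T'']

/-- kernel modulo image -/
def Coh (D : Module.End ℂ T) : Type _ :=
  LinearMap.ker D ⧸ (LinearMap.range D).comap (LinearMap.ker D).subtype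

instance (D : Module.End ℂ T) : AddCommGroup (Coh D) :=
  inferInstanceAs (AddCommGroup
    (LinearMap.ker D ⧸ (LinearMap.range D).comap (LinearMap.ker D).subtype))

instance (D : Module.End ℂ T) : Module ℂ (Coh D) :=
  inferInstanceAs (Module ℂ
    (LinearMap.ker D ⧸ (LinearMap.range D).comap (LinearMap.ker D).subtype))

/-- `f` maps cocycles to cocycles and coboundaries to coboundaries -/
structure Ch (D : Module.End ℂ T) (D' : Module.End ℂ T') (f : T →ₗ[ℂ] T') : Prop where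
  cyc : ∀ z, D z = 0 → D' (f z) = 0
  bd : ∀ y, ∃ y', f (D y) = D' y'

variable {D : Module.End ℂ T} {D' : Module.End ℂ T'} {D'' : Module.End ℂ T''}

theorem Ch.of_comm {f : T →ₗ[ℂ] T'} (h : ∀ a, D' (f a) = f (D a)) : Ch D D' f :=
  ⟨fun z hz => by rw [h, hz, map_zero], fun y => ⟨f y, (h y).symm⟩⟩

theorem Ch.of_anti {f : T →ₗ[ℂ] T'} (h : ∀ a, D' (f a) = -f (D a)) : Ch D D' f :=
  ⟨fun z hz => by rw [h, hz, map_zero, neg_zero], fun y => ⟨-f y, by rw [map_neg, h, neg_neg]⟩⟩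

theorem Ch.of_smul {f : T →ₗ[ℂ] T'} {c : ℂ} (hc : c ≠ 0) (h : ∀ a, D' (f a) = c • f (D a)) :
    Ch D D' f :=
  ⟨fun z hz => by rw [h, hz, map_zero, smul_zero],
    fun y => ⟨c⁻¹ • f y, by rw [map_smul, h, smul_smul, inv_mul_cancel₀ hc, one_smul]⟩⟩

theorem Ch.id : Ch D D LinearMap.id := Ch.of_comm fun _ => rfl

theorem Ch.comp {f : T →ₗ[ℂ] T'} {g : T' →ₗ[ℂ] T''} (hg : Ch D' D'' g) (hf : Ch D D' f) :
    Ch D D'' (g ∘ₗ f) :=
  ⟨fun z hz => hg.cyc _ (hf.cyc z hz), fun y => by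
    obtain ⟨y', h⟩ := hf.bd y
    obtain ⟨y'', h'⟩ := hg.bd y'
    exact ⟨y'', by rw [LinearMap.comp_apply, h, h']⟩⟩

namespace Coh

variable (D) in
/-- the class map -/
def mkL : LinearMap.ker D →ₗ[ℂ] Coh D := Submodule.mkQ _

/-- the class of a cocycle -/
def mk (z : T) (hz : D z = 0) : Coh D := mkL D ⟨z, hz⟩

theorem ind (x : Coh D) : ∃ z hz, x = mk z hz := by
  obtain ⟨⟨z, hz⟩, rfl⟩ := Submodule.mkQ_surjective _ x
  exact ⟨z, hz, rfl⟩

theorem mk_eq_zero {z : T} {hz : D z = 0} : mk z hz = 0 ↔ ∃ y, z = D y :=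
  (Submodule.Quotient.mk_eq_zero _).trans ⟨fun ⟨y, h⟩ => ⟨y, h.symm⟩, fun ⟨y, h⟩ => ⟨y, h.symm⟩⟩

theorem mk_add {z z' : T} (hz : D z = 0) (hz' : D z' = 0) (h : D (z + z') = 0) :
    mk (z + z') h = mk z hz + mk z' hz' := (mkL D).map_add ⟨z, hz⟩ ⟨z', hz'⟩

theorem mk_sub {z z' : T} (hz : D z = 0) (hz' : D z' = 0) (h : D (z - z') = 0) :
    mk (z - z') h = mk z hz - mk z' hz' := (mkL D).map_sub ⟨z, hz⟩ ⟨z', hz'⟩

theorem mk_smul (c : ℂ) {z : T} (hz : D z = 0) (h : D (c • z) = 0) :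
    mk (c • z) h = c • mk z hz := (mkL D).map_smul c ⟨z, hz⟩

theorem mk_zero (h : D 0 = 0) : mk (0 : T) h = 0 := (mkL D).map_zero

theorem mk_congr {z z' : T} (e : z = z') (hz : D z = 0) : mk z hz = mk z' (e ▸ hz) := by
  subst e
  rfl

theorem mk_eq {z z' : T} {hz : D z = 0} {hz' : D z' = 0} :
    mk z hz = mk z' hz' ↔ ∃ y, z - z' = D y := by
  rw [← sub_eq_zero, ← mk_sub hz hz' (by rw [map_sub, hz, hz', sub_zero]), mk_eq_zero]

theorem mk_sum {ι : Type*} (s : Finset ι) {z : ι → T} (hz : ∀ i, D (z i) = 0)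
    (h : D (∑ i ∈ s, z i) = 0) : mk (∑ i ∈ s, z i) h = ∑ i ∈ s, mk (z i) (hz i) := by
  have := map_sum (mkL D) (fun i => (⟨z i, hz i⟩ : LinearMap.ker D)) s
  refine Eq.trans ?_ this
  refine congrArg (mkL D) (Subtype.ext ?_)
  rw [Submodule.coe_sum]

/-- the induced map -/
def map (f : T →ₗ[ℂ] T') (h : Ch D D' f) : Coh D →ₗ[ℂ] Coh D' :=
  Submodule.mapQ _ _ (f.restrict fun z hz => h.cyc z hz) fun z ⟨y, hy⟩ => by
    obtain ⟨y', hy'⟩ := h.bd y
    exact ⟨y', hy'.symm.trans (congrArg f hy)⟩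

theorem map_mk {f : T →ₗ[ℂ] T'} (h : Ch D D' f) (z : T) (hz : D z = 0) :
    map f h (mk z hz) = mk (f z) (h.cyc z hz) := rfl

theorem map_id (x : Coh D) : map LinearMap.id Ch.id x = x := by
  obtain ⟨z, hz, rfl⟩ := ind x
  rfl

theorem map_comp {f : T →ₗ[ℂ] T'} {g : T' →ₗ[ℂ] T''} (hg : Ch D' D'' g) (hf : Ch D D' f)
    (x : Coh D) : map (g ∘ₗ f) (hg.comp hf) x = map g hg (map f hf x) := by
  obtain ⟨z, hz, rfl⟩ := ind x
  rfl

/-- homotopic maps (on cocycles) induce the same map -/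
theorem map_congr {f g : T →ₗ[ℂ] T'} (hf : Ch D D' f) (hg : Ch D D' g)
    (h : ∀ z, D z = 0 → ∃ y, f z - g z = D' y) : map f hf = map g hg := by
  refine LinearMap.ext fun x => ?_
  obtain ⟨z, hz, rfl⟩ := ind x
  exact mk_eq.2 (h z hz)

theorem map_surj {f : T →ₗ[ℂ] T'} (h : Ch D D' f) : Function.Surjective (map f h) ↔
    ∀ z', D' z' = 0 → ∃ z y, D z = 0 ∧ f z - z' = D' y := by
  constructor
  · intro hs z' hz'
    obtain ⟨x, hx⟩ := hs (mk z' hz')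
    obtain ⟨z, hz, rfl⟩ := ind x
    obtain ⟨y, hy⟩ := mk_eq.1 hx
    exact ⟨z, y, hz, hy⟩
  · intro hs x
    obtain ⟨z', hz', rfl⟩ := ind x
    obtain ⟨z, y, hz, hy⟩ := hs z' hz'
    exact ⟨mk z hz, mk_eq.2 ⟨y, hy⟩⟩

theorem map_inj {f : T →ₗ[ℂ] T'} (h : Ch D D' f) : Function.Injective (map f h) ↔
    ∀ z y', D z = 0 → f z = D' y' → ∃ y, z = D y := by
  rw [injective_iff_map_eq_zero]
  constructor
  · intro hs z y' hz hy
    exact mk_eq_zero.1 (hs (mk z hz) (mk_eq_zero.2 ⟨y', hy⟩))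
  · intro hs x hx
    obtain ⟨z, hz, rfl⟩ := ind x
    obtain ⟨y', hy⟩ := mk_eq_zero.1 hx
    exact mk_eq_zero.2 (hs z y' hz hy)

end Coh

end Vale.Agent.P275FM
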