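import Vale.Agent.P275FM.Fm
import Vale.Agent.P275FM.Coh
import Mathlib.LinearAlgebra.Isomorphisms

/-!
# P275, mixed Hodge block: the weight grading on the cohomology of the total complex
-/

noncomputable section

namespace Vale.Agent.P275FM

open Finset

variable {T T' T'' : Type*} [AddCommGroup T] [Module ℂ T] [AddCommGroup T'] [Module ℂ T']
  [AddCommGroup T''] [Module ℂ T'']

namespace Tri

/-- representatives of `δ` closed classes of the `A` cohomology -/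
def Z1 (X : Tri T) : Submodule ℂ T where
  carrier := {a | X.A a = 0 ∧ ∃ c, X.δ a = X.A c}
  add_mem' := by
    rintro a b ⟨h1, c, h2⟩ ⟨h3, e, h4⟩
    exact ⟨by rw [map_add, h1, h3, add_zero], c + e, by rw [map_add, map_add, h2, h4]⟩
  zero_mem' := ⟨map_zero _, 0, by rw [map_zero, map_zero]⟩
  smul_mem' := by
    rintro r a ⟨h1, c, h2⟩
    exact ⟨by rw [map_smul, h1, smul_zero], r • c, by rw [map_smul, map_smul, h2]⟩

/-- representatives of `δ` exact classes of the `A` cohomology -/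
def B1 (X : Tri T) : Submodule ℂ T where
  carrier := {a | ∃ β c, X.A β = 0 ∧ a = X.δ β + X.A c}
  add_mem' := by
    rintro a b ⟨β, c, h1, rfl⟩ ⟨β', c', h3, rfl⟩
    exact ⟨β + β', c + c', by rw [map_add, h1, h3, add_zero], by rw [map_add, map_add]; abel⟩
  zero_mem' := ⟨0, 0, map_zero _, by rw [map_zero, map_zero, add_zero]⟩
  smul_mem' := by
    rintro r a ⟨β, c, h1, rfl⟩
    exact ⟨r • β, r • c, by rw [map_smul, h1, smul_zero], by rw [map_smul, map_smul, smul_add]⟩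

variable {X : Tri T} {X' : Tri T'} {X'' : Tri T''}

theorem mem_Z1 {a : T} : a ∈ X.Z1 ↔ X.A a = 0 ∧ ∃ c, X.δ a = X.A c := Iff.rfl

theorem mem_B1 {a : T} : a ∈ X.B1 ↔ ∃ β c, X.A β = 0 ∧ a = X.δ β + X.A c := Iff.rfl

theorem A_B1 (c : T) : X.A c ∈ X.B1 := ⟨0, c, map_zero _, by rw [map_zero, zero_add]⟩

/-- maps which act on the second page -/
structure Adm (X : Tri T) (X' : Tri T') (f : T →ₗ[ℂ] T') : Prop where
  z : ∀ a ∈ X.Z1, f a ∈ X'.Z1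
  b : ∀ a ∈ X.B1, f a ∈ X'.B1

theorem Adm.of {f : T →ₗ[ℂ] T'} {ε : ℂ} (hε : ε ≠ 0) (hA : Ch X.A X'.A f)
    (hδ : ∀ a, X'.δ (f a) = ε • f (X.δ a)) : Adm X X' f where
  z := by
    rintro a ⟨h1, c, h2⟩
    obtain ⟨c', h3⟩ := hA.bd c
    exact ⟨hA.cyc a h1, ε • c', by rw [hδ, h2, h3, map_smul]⟩
  b := by
    rintro a ⟨β, c, h1, rfl⟩
    obtain ⟨c', h3⟩ := hA.bd c
    exact ⟨ε⁻¹ • f β, c', by rw [map_smul, hA.cyc β h1, smul_zero], by
      rw [map_add, h3, map_smul, hδ, smul_smul, inv_mul_cancel₀ hε, one_smul]⟩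

theorem Adm.of_comm {f : T →ₗ[ℂ] T'} (hA : Ch X.A X'.A f) (hδ : ∀ a, X'.δ (f a) = f (X.δ a)) :
    Adm X X' f := Adm.of one_ne_zero hA fun a => by rw [hδ, one_smul]

theorem Adm.id : Adm X X LinearMap.id := ⟨fun _ h => h, fun _ h => h⟩

theorem Adm.comp {f : T →ₗ[ℂ] T'} {g : T' →ₗ[ℂ] T''} (hg : Adm X' X'' g) (hf : Adm X X' f) :
    Adm X X'' (g ∘ₗ f) := ⟨fun a h => hg.z _ (hf.z a h), fun a h => hg.b _ (hf.b a h)⟩

theorem Adm.zero : Adm X X' 0 := ⟨fun _ _ => zero_mem _, fun _ _ => zero_mem _⟩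

theorem Adm.add {f g : T →ₗ[ℂ] T'} (hf : Adm X X' f) (hg : Adm X X' g) : Adm X X' (f + g) :=
  ⟨fun a h => add_mem (hf.z a h) (hg.z a h), fun a h => add_mem (hf.b a h) (hg.b a h)⟩

theorem Adm.smul {f : T →ₗ[ℂ] T'} (c : ℂ) (hf : Adm X X' f) : Adm X X' (c • f) :=
  ⟨fun a h => Submodule.smul_mem _ c (hf.z a h), fun a h => Submodule.smul_mem _ c (hf.b a h)⟩

/-- morphisms: linear maps commuting with the three differentials up to one nonzero factor and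
shifting the form degree by `s` -/
structure Mor (X : Tri T) (X' : Tri T') (s : ℕ) (f : T →ₗ[ℂ] T') : Prop where
  sg : ∃ ε : ℂ, ε ≠ 0 ∧ (∀ a, X'.A (f a) = ε • f (X.A a)) ∧ (∀ a, X'.B (f a) = ε • f (X.B a)) ∧
    ∀ a, X'.δ (f a) = ε • f (X.δ a)
  dg : ∀ q a, X'.dg (q + s) (f a) = f (X.dg q a)

theorem Mor.chA {s : ℕ} {f : T →ₗ[ℂ] T'} (h : Mor X X' s f) : Ch X.A X'.A f :=
  let ⟨_, h0, h1, _⟩ := h.sg
  Ch.of_smul h0 h1

theorem Mor.ch {s : ℕ} {f : T →ₗ[ℂ] T'} (h : Mor X X' s f) : Ch X.D X'.D f :=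
  let ⟨_, h0, h1, h2, h3⟩ := h.sg
  Ch.of_smul h0 fun a => by
    rw [D_apply, D_apply, h1, h2, h3, map_add, map_add, smul_add, smul_add]

theorem Mor.adm {s : ℕ} {f : T →ₗ[ℂ] T'} (h : Mor X X' s f) : Adm X X' f :=
  let ⟨_, h0, _, _, h3⟩ := h.sg
  Adm.of h0 h.chA h3

namespace OK

variable (h : X.OK)
include h

theorem B1_le : X.B1 ≤ X.Z1 := by
  rintro a ⟨β, c, h1, rfl⟩
  refine ⟨by rw [map_add, h.AA, h.Aδ, h1, map_zero, neg_zero, add_zero], -X.δ c, ?_⟩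
  rw [map_add, h.δδ, zero_add, map_neg, h.Aδ, neg_neg]

theorem mem_Z1 {z : T} (ha : X.A z = 0) (hz : X.D z = 0) : z ∈ X.Z1 := ⟨ha, h.δ_ex ha hz⟩

theorem lift_eq' {a e z e' : T} (he : X.D (a + X.A e) = 0) (hz : X.D z = 0)
    (h0 : z = a + X.A e') : Coh.mk _ he = Coh.mk _ hz := by
  have h1 : a + X.A e - z = X.A (e - e') := by rw [map_sub, h0]; abel
  obtain ⟨y, hy⟩ := h.ex_A (b := e - e') (by rw [← h1, map_sub, he, hz, sub_zero])
  exact Coh.mk_eq.2 ⟨_, h1.trans hy⟩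

theorem lift_eq {a e e' : T} (he : X.D (a + X.A e) = 0) (he' : X.D (a + X.A e') = 0) :
    Coh.mk _ he = Coh.mk _ he' := h.lift_eq' he he' rfl

theorem f3' (a : X.Z1) : ∃ e, X.D (a + X.A e) = 0 := h.f3 a.2.1 a.2.2.choose_spec

/-- the class of a cocycle of the second page -/
def cl : X.Z1 →ₗ[ℂ] Coh X.D where
  toFun a := Coh.mk _ (h.f3' a).choose_spec
  map_add' a b := by
    have ha := (h.f3' a).choose_spec
    have hb := (h.f3' b).choose_spec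
    rw [← Coh.mk_add ha hb (by rw [map_add, ha, hb, add_zero])]
    exact h.lift_eq' _ _ (e' := (h.f3' a).choose + (h.f3' b).choose)
      (by rw [map_add X.A, Submodule.coe_add, add_add_add_comm])
  map_smul' c a := by
    have ha := (h.f3' a).choose_spec
    rw [RingHom.id_apply, ← Coh.mk_smul c ha (by rw [map_smul, ha, smul_zero])]
    exact h.lift_eq' _ _ (e' := c • (h.f3' a).choose)
      (by rw [map_smul X.A, Submodule.coe_smul, smul_add])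

theorem cl_eq {a : T} (ha : a ∈ X.Z1) {e : T} (he : X.D (a + X.A e) = 0) :
    h.cl ⟨a, ha⟩ = Coh.mk _ he := h.lift_eq _ he

theorem cl_self {z : T} (ha : z ∈ X.Z1) (hz : X.D z = 0) : h.cl ⟨z, ha⟩ = Coh.mk z hz :=
  (h.cl_eq ha (e := 0) (by rw [map_zero, add_zero, hz])).trans
    (Coh.mk_congr (by rw [map_zero, add_zero]) _)

theorem rep (x : Coh X.D) : ∃ z hz, X.A z = 0 ∧ x = Coh.mk z hz := by
  obtain ⟨z, hz, rfl⟩ := Coh.ind x
  obtain ⟨e, he⟩ := h.f1 hz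
  exact ⟨_, by rw [map_sub, hz, h.DD0, sub_zero], he, Coh.mk_eq.2 ⟨e, by abel⟩⟩

theorem cl_surj : Function.Surjective h.cl := fun x => by
  obtain ⟨z, hz, ha, rfl⟩ := h.rep x
  exact ⟨⟨z, h.mem_Z1 ha hz⟩, h.cl_self _ hz⟩

theorem cl_zero {a : T} (ha : a ∈ X.Z1) : h.cl ⟨a, ha⟩ = 0 ↔ a ∈ X.B1 := by
  obtain ⟨c, hc⟩ := ha.2
  obtain ⟨e, he⟩ := h.f3 ha.1 hc
  rw [h.cl_eq ha he, Coh.mk_eq_zero, h.f4 (by rw [map_add, ha.1, h.AA, add_zero]) he]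
  exact (X.B1.add_mem_iff_left (A_B1 e))

theorem cl_congr {a b : T} (ha : a ∈ X.Z1) (hb : b ∈ X.Z1) :
    h.cl ⟨a, ha⟩ = h.cl ⟨b, hb⟩ ↔ a - b ∈ X.B1 := by
  rw [← sub_eq_zero, ← map_sub]
  exact h.cl_zero (sub_mem ha hb)

variable (h' : X'.OK)

/-- the action of an admissible map on the cohomology of the total complex -/
def act (f : T →ₗ[ℂ] T') (hf : Adm X X' f) : Coh X.D →ₗ[ℂ] Coh X'.D :=
  ((LinearMap.ker h.cl).liftQ (h'.cl ∘ₗ f.restrict hf.z) fun a ha =>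
    (h'.cl_zero (hf.z a a.2)).2 (hf.b a ((h.cl_zero a.2).1 ha))) ∘ₗ
    (h.cl.quotKerEquivOfSurjective h.cl_surj).symm.toLinearMap

theorem act_cl {f : T →ₗ[ℂ] T'} (hf : Adm X X' f) {a : T} (ha : a ∈ X.Z1) :
    h.act h' f hf (h.cl ⟨a, ha⟩) = h'.cl ⟨f a, hf.z a ha⟩ := by
  have : (h.cl.quotKerEquivOfSurjective h.cl_surj).symm (h.cl ⟨a, ha⟩) =
      Submodule.Quotient.mk ⟨a, ha⟩ := by
    rw [LinearEquiv.symm_apply_eq]
    rfl
  rw [act, LinearMap.comp_apply, LinearEquiv.coe_coe, this]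
  rfl

theorem cl_ind (x : Coh X.D) : ∃ a ha, x = h.cl ⟨a, ha⟩ := by
  obtain ⟨⟨a, ha⟩, rfl⟩ := h.cl_surj x
  exact ⟨a, ha, rfl⟩

/-- for chain maps the action is the induced map -/
theorem act_eq_map {f : T →ₗ[ℂ] T'} (hf : Adm X X' f) (hc : Ch X.D X'.D f) :
    h.act h' f hf = Coh.map f hc := by
  refine LinearMap.ext fun x => ?_
  obtain ⟨z, hz, ha, rfl⟩ := h.rep x
  rw [Coh.map_mk, ← h.cl_self (h.mem_Z1 ha hz) hz, h.act_cl, h'.cl_self]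

theorem act_congr {f g : T →ₗ[ℂ] T'} (hf : Adm X X' f) (hg : Adm X X' g)
    (e : ∀ a ∈ X.Z1, f a - g a ∈ X'.B1) : h.act h' f hf = h.act h' g hg := by
  refine LinearMap.ext fun x => ?_
  obtain ⟨a, ha, rfl⟩ := h.cl_ind x
  rw [h.act_cl, h.act_cl, h'.cl_congr]
  exact e a ha

theorem act_id (x : Coh X.D) : h.act h LinearMap.id Adm.id x = x := by
  obtain ⟨a, ha, rfl⟩ := h.cl_ind x
  rw [h.act_cl]
  rfl

theorem act_comp (h'' : X''.OK) {f : T →ₗ[ℂ] T'} {g : T' →ₗ[ℂ] T''} (hg : Adm X' X'' g)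
    (hf : Adm X X' f) (x : Coh X.D) :
    h.act h'' (g ∘ₗ f) (hg.comp hf) x = h'.act h'' g hg (h.act h' f hf x) := by
  obtain ⟨a, ha, rfl⟩ := h.cl_ind x
  rw [h.act_cl, h.act_cl, h'.act_cl]
  rfl

theorem act_zero (x : Coh X.D) : h.act h' 0 Adm.zero x = 0 := by
  obtain ⟨a, ha, rfl⟩ := h.cl_ind x
  rw [h.act_cl]
  exact h'.cl.map_zero

theorem act_add {f g : T →ₗ[ℂ] T'} (hf : Adm X X' f) (hg : Adm X X' g) (x : Coh X.D) :
    h.act h' (f + g) (hf.add hg) x = h.act h' f hf x + h.act h' g hg x := by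
  obtain ⟨a, ha, rfl⟩ := h.cl_ind x
  rw [h.act_cl, h.act_cl, h.act_cl, ← map_add]
  rfl

theorem act_smul {f : T →ₗ[ℂ] T'} (c : ℂ) (hf : Adm X X' f) (x : Coh X.D) :
    h.act h' (c • f) (hf.smul c) x = c • h.act h' f hf x := by
  obtain ⟨a, ha, rfl⟩ := h.cl_ind x
  rw [h.act_cl, h.act_cl, ← map_smul]
  rfl

/-- commuting squares -/
theorem act_sq {T₁ T₂ : Type*} [AddCommGroup T₁] [Module ℂ T₁] [AddCommGroup T₂] [Module ℂ T₂]
    {X₁ : Tri T₁} {X₂ : Tri T₂} (h₁ : X₁.OK) (h₂ : X₂.OK) {f : T →ₗ[ℂ] T₁} {g : T₁ →ₗ[ℂ] T'}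
    {f' : T →ₗ[ℂ] T₂} {g' : T₂ →ₗ[ℂ] T'} (hf : Adm X X₁ f) (hg : Adm X₁ X' g) (hf' : Adm X X₂ f')
    (hg' : Adm X₂ X' g') (e : ∀ a, g (f a) = g' (f' a)) (x : Coh X.D) :
    h₁.act h' g hg (h.act h₁ f hf x) = h₂.act h' g' hg' (h.act h₂ f' hf' x) := by
  obtain ⟨a, ha, rfl⟩ := h.cl_ind x
  rw [h.act_cl, h.act_cl, h₁.act_cl, h₂.act_cl]
  exact congrArg _ (Subtype.ext (e a))

theorem chA_dg (q : ℕ) : Ch X.A X.A (X.dg q) where
  cyc z hz := by rw [← h.dgA, hz, map_zero]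
  bd y := by
    cases q with
    | zero => exact ⟨0, by rw [h.dg0A, map_zero]⟩
    | succ q => exact ⟨_, h.dgA q y⟩

theorem adm_dg (q : ℕ) : Adm X X (X.dg q) := Adm.of_comm (h.chA_dg q) fun a => (h.dgδ q a).symm

/-- the projector on the classes of weight `q` -/
def wt (q : ℕ) : Module.End ℂ (Coh X.D) := h.act h (X.dg q) (h.adm_dg q)

theorem wt_cl (q : ℕ) {a : T} (ha : a ∈ X.Z1) :
    h.wt q (h.cl ⟨a, ha⟩) = h.cl ⟨X.dg q a, (h.adm_dg q).z a ha⟩ := h.act_cl h _ ha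

theorem wt_mul (j k : ℕ) (x : Coh X.D) : h.wt j (h.wt k x) = if j = k then h.wt k x else 0 := by
  obtain ⟨a, ha, rfl⟩ := h.cl_ind x
  rw [h.wt_cl, h.wt_cl]
  split_ifs with e
  · exact congrArg _ (Subtype.ext ((h.dg_mul j k a).trans (if_pos e)))
  · exact (congrArg _ (Subtype.ext ((h.dg_mul j k a).trans (if_neg e)))).trans h.cl.map_zero

theorem wt_sum_lt {n : ℕ} {a : T} (ha : a ∈ X.Z1) (hn : a ∈ X.lt n) :
    ∑ q ∈ range n, h.wt q (h.cl ⟨a, ha⟩) = h.cl ⟨a, ha⟩ := by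
  simp only [h.wt_cl]
  rw [← map_sum]
  refine congrArg _ (Subtype.ext ?_)
  rw [Submodule.coe_sum]
  exact h.sum_lt hn

theorem wt_sum : ∃ N, (∀ x, ∑ q ∈ range N, h.wt q x = x) ∧ ∀ q, N ≤ q → ∀ x, h.wt q x = 0 := by
  obtain ⟨N, hN⟩ := h.lt_top
  refine ⟨N, fun x => ?_, fun q hq x => ?_⟩
  · obtain ⟨a, ha, rfl⟩ := h.cl_ind x
    exact h.wt_sum_lt ha (hN a)
  · obtain ⟨a, ha, rfl⟩ := h.cl_ind x
    rw [h.wt_cl]
    exact (congrArg _ (Subtype.ext (hN a q hq))).trans h.cl.map_zero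

/-- admissible maps shifting the form degree shift the weight -/
theorem wt_act {f : T →ₗ[ℂ] T'} (hf : Adm X X' f) {q q' : ℕ}
    (e : ∀ a, X'.dg q' (f a) = f (X.dg q a)) (x : Coh X.D) :
    h'.wt q' (h.act h' f hf x) = h.act h' f hf (h.wt q x) :=
  h.act_sq h' h' h hf (h'.adm_dg q') (h.adm_dg q) hf e x

/-- **morphisms are graded** -/
theorem wt_map {s : ℕ} {f : T →ₗ[ℂ] T'} (hf : Mor X X' s f) (q : ℕ) (x : Coh X.D) :
    h'.wt (q + s) (Coh.map f hf.ch x) = Coh.map f hf.ch (h.wt q x) := by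
  rw [← h.act_eq_map h' hf.adm]
  exact h.wt_act h' hf.adm (hf.dg q) x

theorem wt_map_lt {s : ℕ} {f : T →ₗ[ℂ] T'} (hf : Mor X X' s f) {q : ℕ} (hq : q < s)
    (x : Coh X.D) : h'.wt q (Coh.map f hf.ch x) = 0 := by
  obtain ⟨N, h1, -⟩ := h.wt_sum
  rw [← h1 x, map_sum, map_sum]
  exact sum_eq_zero fun j _ => by rw [← h.wt_map h' hf, h'.wt_mul, if_neg (by omega)]

/-- the classes of pure weight `q` -/
theorem wt_eq_iff (q : ℕ) (x : Coh X.D) : h.wt q x = x ↔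
    ∃ a e he, X.A a = 0 ∧ X.B a = 0 ∧ X.dg q a = a ∧ x = Coh.mk (a + X.A e) he := by
  constructor
  · intro hx
    obtain ⟨a, ha, rfl⟩ := h.cl_ind x
    have h1 := (h.adm_dg q).z a ha
    obtain ⟨e, he⟩ := h.both h1.1
    have h2 : X.dg q a + X.A e ∈ X.Z1 := add_mem h1 (h.B1_le (A_B1 e))
    have h3 := (h.adm_dg q).z _ h2
    obtain ⟨c, hc⟩ := h3.2
    obtain ⟨e', he'⟩ := h.f3 h3.1 hc
    refine ⟨_, e', he', h3.1, by rw [← h.dgB, he, map_zero], by rw [h.dg_mul, if_pos rfl], ?_⟩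
    rw [← hx, ← h.cl_eq h3 he', h.wt_cl, h.cl_congr, map_add, h.dg_mul, if_pos rfl]
    obtain ⟨y, hy⟩ := (h.chA_dg q).bd e
    rw [hy, sub_add_cancel_left]
    exact neg_mem (A_B1 y)
  · rintro ⟨a, e, he, h1, -, h3, rfl⟩
    have h4 : a + X.A e ∈ X.Z1 := h.mem_Z1 (by rw [map_add, h1, h.AA, add_zero]) he
    have ha : a ∈ X.Z1 := (X.Z1.add_mem_iff_left (h.B1_le (A_B1 e))).1 h4
    rw [← h.cl_eq ha he, h.wt_cl]
    exact congrArg _ (Subtype.ext h3)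

/-- **the filtration by the form degree is split by the weights** -/
theorem fil_iff (n : ℕ) (x : Coh X.D) : (∃ z hz, z ∈ X.lt n ∧ x = Coh.mk z hz) ↔
    ∀ q, n ≤ q → h.wt q x = 0 := by
  constructor
  · rintro ⟨z, hz, hn, rfl⟩ q hq
    cases n with
    | zero => rw [Coh.mk_congr (h.lt_zero hn), Coh.mk_zero, map_zero]
    | succ n =>
      obtain ⟨e, l, he⟩ := h.f1_lt hn hz
      have h1 : X.D (z - X.D e) = 0 := by rw [map_sub, hz, h.DD0, sub_zero]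
      rw [(Coh.mk_eq (hz' := h1)).2 ⟨e, by abel⟩, ← h.cl_self (h.mem_Z1 he h1) h1, h.wt_cl]
      exact (congrArg _ (Subtype.ext (sub_mem hn (h.D_lt l) q hq))).trans h.cl.map_zero
  · intro hx
    obtain ⟨N, h1, -⟩ := h.wt_sum
    obtain ⟨a, ha, rfl⟩ := h.cl_ind x
    have e1 : ∑ q ∈ range n, h.wt q (h.cl ⟨a, ha⟩) = h.cl ⟨a, ha⟩ := by
      obtain ⟨N', h3, h4⟩ := h.wt_sum
      rw [← h3 (h.cl ⟨a, ha⟩)]
      conv_lhs => rw [h3]
      exact (sum_subset (range_subset_range.2 (Nat.le_add_right n N')) fun q _ hq =>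
        hx q (by simpa using hq)).trans (sum_subset (range_subset_range.2 (Nat.le_add_left N' n))
          fun q _ hq => h4 q (by simpa using hq) _).symm
    cases n with
    | zero => exact ⟨0, map_zero _, zero_mem _, by rw [← e1, sum_range_zero, Coh.mk_zero]⟩
    | succ n =>
      have hb : ∑ q ∈ range (n + 1), X.dg q a ∈ X.Z1 := sum_mem fun q _ => (h.adm_dg q).z a ha
      have hl : ∑ q ∈ range (n + 1), X.dg q a ∈ X.lt (n + 1) :=
        sum_mem fun q hq => h.dg_lt (mem_range.1 hq) a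
      obtain ⟨c, hc⟩ := hb.2
      obtain ⟨e, l, he⟩ := h.f3_lt hl hb.1 hc
      refine ⟨_, he, add_mem hl (h.A_lt l), ?_⟩
      rw [← h.cl_eq hb he, ← e1]
      simp only [h.wt_cl]
      rw [← map_sum]
      exact congrArg _ (Subtype.ext (Submodule.coe_sum _ _ _))

end OK

end Tri

end Vale.Agent.P275FM
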