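import Vale.Agent.P275FM.St
import Mathlib.LinearAlgebra.Dual.Lemmas

/-!
# P275, mixed Hodge block: the cohomology of the transpose, the second page
-/

noncomputable section

namespace Vale.Agent.P275FM

open Module

variable {T T' : Type*} [AddCommGroup T] [Module ℂ T] [AddCommGroup T'] [Module ℂ T']
  {D : Module.End ℂ T} {D' : Module.End ℂ T'}

/-- a functional vanishing on the kernel of `f` factors through `f` -/
theorem fac_of_ker {f : T →ₗ[ℂ] T'} {φ : Dual ℂ T} (h : ∀ z, f z = 0 → φ z = 0) :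
    ∃ ψ : Dual ℂ T', φ = f.dualMap ψ := by
  have : φ ∈ LinearMap.range f.dualMap := by
    rw [LinearMap.range_dualMap_eq_dualAnnihilator_ker]
    exact (Submodule.mem_dualAnnihilator _).2 h
  obtain ⟨ψ, hψ⟩ := this
  exact ⟨ψ, hψ.symm⟩

/-- an element killed by all functionals which vanish on the range of `f` is in the range -/
theorem range_of_ann {f : T →ₗ[ℂ] T'} {z : T'}
    (h : ∀ φ : Dual ℂ T', f.dualMap φ = 0 → φ z = 0) : ∃ y, z = f y := by
  by_contra hn
  have h1 : z ∉ LinearMap.range f := fun ⟨y, hy⟩ => hn ⟨y, hy.symm⟩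
  obtain ⟨φ, h2, h3⟩ := Submodule.exists_dual_map_eq_bot_of_notMem h1 inferInstance
  refine h2 (h φ (LinearMap.ext fun y => ?_))
  have : φ (f y) ∈ (LinearMap.range f).map φ := ⟨f y, ⟨y, rfl⟩, rfl⟩
  rwa [h3] at this

theorem Ch.dual {f : T →ₗ[ℂ] T'} (h : Ch D D' f) : Ch D'.dualMap D.dualMap f.dualMap where
  cyc φ hφ := LinearMap.ext fun y => by
    obtain ⟨y', hy⟩ := h.bd y
    show φ (f (D y)) = 0
    rw [hy]
    exact LinearMap.congr_fun hφ y'
  bd ψ := fac_of_ker fun z hz => by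
    show ψ (D' (f z)) = 0
    rw [h.cyc z hz, map_zero]

namespace Coh

variable (D) in
/-- the pairing of the cohomology of the transpose with the cohomology -/
def pair : Coh D.dualMap →ₗ[ℂ] Dual ℂ (Coh D) :=
  Submodule.liftQ _
    { toFun := fun φ : LinearMap.ker D.dualMap =>
        Submodule.liftQ _ ((φ : Dual ℂ T) ∘ₗ (LinearMap.ker D).subtype) fun z ⟨y, hy⟩ =>
          (congrArg (φ : Dual ℂ T) hy).symm.trans (LinearMap.congr_fun φ.2 y)
      map_add' := fun a b => LinearMap.ext fun x => by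
        obtain ⟨z, hz, rfl⟩ := ind (D := D) x
        rfl
      map_smul' := fun c a => LinearMap.ext fun x => by
        obtain ⟨z, hz, rfl⟩ := ind (D := D) x
        rfl }
    fun φ ⟨ψ, hψ⟩ => LinearMap.ext fun x => by
      obtain ⟨z, hz, rfl⟩ := ind (D := D) x
      exact (LinearMap.congr_fun hψ z).symm.trans ((congrArg ψ hz).trans (map_zero ψ))

theorem pair_mk (φ : Dual ℂ T) (hφ : D.dualMap φ = 0) (z : T) (hz : D z = 0) :
    pair D (mk φ hφ) (mk z hz) = φ z := rfl

theorem pair_inj : Function.Injective (pair D) := by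
  rw [injective_iff_map_eq_zero]
  intro x hx
  obtain ⟨φ, hφ, rfl⟩ := ind x
  exact mk_eq_zero.2 (fac_of_ker fun z hz => LinearMap.congr_fun hx (mk z hz))

theorem pair_surj (dd : ∀ a, D (D a) = 0) : Function.Surjective (pair D) := by
  intro l
  obtain ⟨φ, hφ⟩ := LinearMap.dualMap_surjective_of_injective
    (LinearMap.ker D).injective_subtype (l ∘ₗ mkL D)
  have h1 : ∀ z hz, φ z = l (mk z hz) := fun z hz => LinearMap.congr_fun hφ ⟨z, hz⟩
  refine ⟨mk φ (LinearMap.ext fun y => ?_), LinearMap.ext fun x => ?_⟩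
  · exact (h1 _ (dd y)).trans (by rw [mk_eq_zero.2 ⟨y, rfl⟩, map_zero]; rfl)
  · obtain ⟨z, hz, rfl⟩ := ind x
    exact h1 z hz

/-- the cohomology of the transpose is the dual of the cohomology -/
def dual (dd : ∀ a, D (D a) = 0) : Coh D.dualMap ≃ₗ[ℂ] Dual ℂ (Coh D) :=
  LinearEquiv.ofBijective (pair D) ⟨pair_inj, pair_surj dd⟩

theorem dual_apply (dd : ∀ a, D (D a) = 0) (x : Coh D.dualMap) : dual dd x = pair D x := rfl

theorem pair_map {f : T →ₗ[ℂ] T'} (h : Ch D D' f) (x : Coh D'.dualMap) (y : Coh D) :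
    pair D (map f.dualMap h.dual x) y = pair D' x (map f h y) := by
  obtain ⟨φ, hφ, rfl⟩ := ind x
  obtain ⟨z, hz, rfl⟩ := ind y
  rfl

variable (dd : ∀ a, D (D a) = 0) (dd' : ∀ a, D' (D' a) = 0) {f : T →ₗ[ℂ] T'} (h : Ch D D' f)

theorem pair_comp : pair D ∘ₗ map f.dualMap h.dual = (map f h).dualMap ∘ₗ pair D' :=
  LinearMap.ext fun x => LinearMap.ext fun y => pair_map h x y

include dd' in
theorem dual_inj_iff : Function.Injective (map f.dualMap h.dual) ↔
    Function.Surjective (map f h) := by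
  rw [← LinearMap.dualMap_injective_iff, ← (pair_inj (D := D)).of_comp_iff,
    ← Function.Injective.of_comp_iff' _ (⟨pair_inj, pair_surj dd'⟩ : Function.Bijective (pair D')),
    ← LinearMap.coe_comp, ← LinearMap.coe_comp, pair_comp]

include dd dd' in
theorem dual_surj_iff : Function.Surjective (map f.dualMap h.dual) ↔
    Function.Injective (map f h) := by
  rw [← LinearMap.dualMap_surjective_iff, ← Function.Surjective.of_comp_iff'
    (⟨pair_inj, pair_surj dd⟩ : Function.Bijective (pair D)),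
    ← Function.Surjective.of_comp_iff _ (pair_surj dd'), ← LinearMap.coe_comp,
    ← LinearMap.coe_comp, pair_comp]

include dd dd' in
theorem dual_bij_iff : Function.Bijective (map f.dualMap h.dual) ↔
    Function.Bijective (map f h) := by
  rw [Function.Bijective, dual_inj_iff dd' h, dual_surj_iff dd dd' h, and_comm]
  rfl

end Coh

/-- the transpose of a grading -/
theorem IsGr.dual {w : ℕ → Module.End ℂ T} (h : IsGr w) : IsGr fun q => (w q).dualMap where
  mul j k φ := LinearMap.ext fun x => by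
    show φ (w k (w j x)) = _
    rw [h.mul]
    by_cases e : j = k
    · rw [if_pos e, if_pos e.symm, e]
      rfl
    · rw [if_neg e, if_neg (Ne.symm e), map_zero]
      rfl
  sum := by
    obtain ⟨N, hN⟩ := h.sum
    refine ⟨N, fun φ => LinearMap.ext fun x => ?_⟩
    rw [LinearMap.sum_apply]
    exact (map_sum φ _ _).symm.trans (congrArg φ (hN x))

theorem Grd.dual {w : ℕ → Module.End ℂ T} {w' : ℕ → Module.End ℂ T'} {s : ℤ} {f : T →ₗ[ℂ] T'}
    (g : Grd w w' s f) : Grd (fun q => (w' q).dualMap) (fun q => (w q).dualMap) (-s) f.dualMap :=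
  fun q q' φ hq => LinearMap.ext fun x => by
    show φ (w' q (f (w q' x))) = 0
    rw [g q' q x (by omega), map_zero]

/-- the transpose of a short exact sequence -/
theorem SES.dual {T₁ T₂ : Type*} [AddCommGroup T₁] [Module ℂ T₁] [AddCommGroup T₂] [Module ℂ T₂]
    {D₁ : Module.End ℂ T₁} {D₂ : Module.End ℂ T₂} {i : T₁ →ₗ[ℂ] T} {p : T →ₗ[ℂ] T₂}
    (h : SES D₁ D D₂ i p) : SES D₂.dualMap D.dualMap D₁.dualMap p.dualMap i.dualMap where
  dd φ := LinearMap.ext fun a => (congrArg φ (h.dd a)).trans (map_zero φ)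
  di φ := LinearMap.ext fun a => congrArg φ (h.dp a).symm
  dp φ := LinearMap.ext fun a => congrArg φ (h.di a).symm
  inj := LinearMap.dualMap_injective_of_surjective h.surj
  surj := LinearMap.dualMap_surjective_of_injective h.inj
  ex φ := ⟨fun h0 => fac_of_ker fun z hz => by
      obtain ⟨b, rfl⟩ := (h.ex z).1 hz
      exact LinearMap.congr_fun h0 b, by
    rintro ⟨ψ, rfl⟩
    exact LinearMap.ext fun a => (congrArg ψ (h.pi a)).trans (map_zero ψ)⟩

namespace Tri.OK

variable {X : Tri T} (h : X.OK)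
include h

/-- closed elements are cohomologous to elements closed for both differentials -/
theorem d_both {a : T} (ha : X.A a + X.B a = 0) :
    ∃ e, X.A (a + (X.A e + X.B e)) = 0 ∧ X.B (a + (X.A e + X.B e)) = 0 := by
  have h1 : X.A a = -X.B a := eq_neg_of_add_eq_zero_left ha
  obtain ⟨c, hc⟩ := h.l2 a (by rw [h1, map_neg, h.BB, neg_zero])
  refine ⟨-c, ?_, ?_⟩
  · rw [map_add, map_add, h.AA, zero_add, map_neg, map_neg, hc, add_neg_cancel]
  · rw [map_add, map_add, h.BB, add_zero, map_neg, map_neg, ← h.AB, ← hc, h1, add_neg_cancel]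

/-- for such elements all notions of exactness agree -/
theorem d_ex {a : T} (h1 : X.A a = 0) (h2 : X.B a = 0) :
    (∃ y, a = X.A y + X.B y) ↔ ∃ y, a = X.A y := by
  constructor
  · rintro ⟨y, rfl⟩
    rw [map_add, h.AA, zero_add] at h1
    obtain ⟨c, hc⟩ := h.l1 y h1
    exact ⟨y + X.B c, by rw [map_add, hc]⟩
  · rintro ⟨y, rfl⟩
    obtain ⟨c, hc⟩ := h.l2 y h2
    exact ⟨X.B c, by rw [h.BB, add_zero, hc]⟩

theorem wt_eq_map {q : ℕ} (c : Ch X.D X.D (X.dg q)) : h.wt q = Coh.map _ c := h.act_eq_map h _ c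

theorem ch_dg (h0 : X.δ = 0) (q : ℕ) : Ch X.D X.D (X.dg q) :=
  ch_of_shift (fun k a => by
    rw [D_apply, D_apply, h0, LinearMap.zero_apply, LinearMap.zero_apply, add_zero, add_zero,
      map_add, h.dgA, h.dgB]) (fun a => by
    rw [D_apply, h0, LinearMap.zero_apply, add_zero, map_add, h.dg0A, h.dg0B, add_zero]) q

/-- purity: without third differential the weight is the degree -/
theorem pure (h0 : X.δ = 0) (q : ℕ) (z : T) (hz : X.D z = 0) :
    h.wt q (Coh.mk z hz) = Coh.mk (X.dg q z) ((h.ch_dg h0 q).cyc z hz) := by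
  rw [h.wt_eq_map (h.ch_dg h0 q), Coh.map_mk]

/-- the connecting map of a sequence split compatibly with `A`, `B` and the degrees is graded -/
theorem grd_bd {T₁ T₂ : Type*} [AddCommGroup T₁] [Module ℂ T₁] [AddCommGroup T₂] [Module ℂ T₂]
    {X₁ : Tri T₁} {X₂ : Tri T₂} (h₁ : X₁.OK) (h₂ : X₂.OK) {i : T₁ →ₗ[ℂ] T} {p : T →ₗ[ℂ] T₂}
    (e : SES X₁.D X.D X₂.D i p) (iA : ∀ a, X.A (i a) = i (X₁.A a))
    (iδ : ∀ a, X.δ (i a) = i (X₁.δ a)) (id : ∀ q a, X.dg q (i a) = i (X₁.dg q a))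
    {s : T₂ →ₗ[ℂ] T} (hs : ∀ a, p (s a) = a) (sA : ∀ a, X.A (s a) = s (X₂.A a))
    (sB : ∀ a, X.B (s a) = s (X₂.B a)) (sd : ∀ q a, X.dg q (s a) = s (X₂.dg q a)) :
    Grd h₂.wt h₁.wt 0 e.bd := by
  obtain ⟨r, hr⟩ := i.exists_leftInverse_of_injective (LinearMap.ker_eq_bot.2 e.inj)
  have hθ : ∀ a, i ((r ∘ₗ (X.D ∘ₗ s - s ∘ₗ X₂.D)) a) = X.D (s a) - s (X₂.D a) := fun a => by
    obtain ⟨b, hb⟩ := (e.ex (X.D (s a) - s (X₂.D a))).1 (by
      rw [map_sub, ← e.dp, hs, hs, sub_self])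
    show i (r (X.D (s a) - s (X₂.D a))) = _
    rw [hb]
    exact congrArg i (LinearMap.congr_fun hr b)
  generalize r ∘ₗ (X.D ∘ₗ s - s ∘ₗ X₂.D) = θ at hθ
  have hθ' : ∀ a, i (θ a) = X.δ (s a) - s (X₂.δ a) := fun a => by
    rw [hθ, D_apply, D_apply, sA, sB, map_add, map_add]
    abel
  rw [e.bd_eq hs hθ]
  refine h₂.grd_map h₁ (Adm.of (ε := -1) (by norm_num) (Ch.of_anti fun a => e.inj ?_)
    fun a => e.inj ?_) _ (Grd.of_comm h₁.gr_dg fun q a => e.inj ?_)
  · rw [← iA, map_neg, hθ', hθ', map_sub, h.Aδ, sA, sA, h₂.Aδ, map_neg]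
    abel
  · rw [← iδ, map_smul, hθ', hθ', map_sub, h.δδ, h₂.δδ, map_zero, neg_one_smul]
    abel
  · rw [← id, hθ', hθ', map_sub, h.dgδ, sd, sd, h₂.dgδ]

end Tri.OK

end Vale.Agent.P275FM
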