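import Vale.Agent.P275M.S1
import Vale.Agent.P281Z.Hg.Ab0b
import Vale.Agent.P281Z.Hg.Ab1

/-!
# P275, mixed Hodge block, row DDA: the lemma of the two differentials
-/

noncomputable section

namespace Vale.Agent.P275FM

open Vale.Agent.P281Z.Hg Vale.Agent.P275M

variable {S : Type} [AddCommGroup S] [Module ℂ S] {D : ℕ} {X : Cx S D} {K : KP X}

namespace Dda

theorem nrm0 (h : K.Alg) (hb : K.KIb) {a : S} (h0 : K.nrm a = 0) : a = 0 := by
  refine h.defn a ?_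
  have h1 := hb.sq a
  have h2 := congrArg Complex.im (h.herm a a)
  rw [h0] at h1
  simp only [RCLike.star_def, Complex.conj_im] at h2
  exact Complex.ext (by rw [← h1]; simp) (by simp only [Complex.zero_im]; linarith)

theorem l1 (ha : K.KIa) : K.Abs * K.A + K.A * K.Abs = 0 := by
  rw [KP.Abs, smul_mul_assoc, mul_smul_comm, ← smul_add, Ab0b.ring1 ha.AA, smul_zero]

theorem l2 (ha : K.KIa) : K.As * K.Ab + K.Ab * K.As = 0 := by
  rw [KP.As, smul_mul_assoc, mul_smul_comm, ← smul_add, Ab0b.ring1 ha.AbAb, smul_zero]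

theorem l3 (ha : K.KIa) : K.As * K.A + K.A * K.As = K.Abs * K.Ab + K.Ab * K.Abs := by
  rw [KP.As, KP.Abs, smul_mul_assoc, mul_smul_comm, ← smul_add, smul_mul_assoc, mul_smul_comm,
    ← smul_add, Ab0b.ring2 ha.AAb, smul_neg, neg_smul]

theorem l4 (ha : K.KIa) : K.ds * X.d + X.d * K.ds =
    (K.As * K.A + K.A * K.As) + (K.Abs * K.Ab + K.Ab * K.Abs) := by
  rw [← add_zero (_ + _ + (_ + _)), ← add_zero 0]
  nth_rw 1 [← l1 ha]
  rw [← l2 ha, KP.ds, ha.d_eq]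
  noncomm_ring

theorem dsds (hX : X.OK) (h : K.Alg) (ha : K.KIa) (a : S) : K.ds (K.ds a) = 0 :=
  h.defn _ (by rw [← ha.adjd, ← ha.adjd, hX.dd, Ab0b.ip_zero_r ha])

theorem sqD (hX : X.OK) (h : K.Alg) (ha : K.KIa) (b : S) :
    (X.d + K.ds) ((X.d + K.ds) b) = (K.ds * X.d + X.d * K.ds) b := by
  simp only [LinearMap.add_apply, map_add, hX.dd, dsds hX h ha, Module.End.mul_apply]
  abel

theorem sqA (hX : X.OK) (h : K.Alg) (ha : K.KIa) (b : S) :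
    (X.d + K.ds) ((X.d + K.ds) b) = K.As (K.A ((2 : ℂ) • b)) + K.A (K.As ((2 : ℂ) • b)) := by
  rw [sqD hX h ha, l4 ha, ← l3 ha]
  simp only [LinearMap.add_apply, Module.End.mul_apply, two_smul, map_add]
  abel

theorem sqAb (hX : X.OK) (h : K.Alg) (ha : K.KIa) (b : S) :
    (X.d + K.ds) ((X.d + K.ds) b) = K.Abs (K.Ab ((2 : ℂ) • b)) + K.Ab (K.Abs ((2 : ℂ) • b)) := by
  rw [sqD hX h ha, l4 ha, l3 ha]
  simp only [LinearMap.add_apply, Module.End.mul_apply, two_smul, map_add]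
  abel

theorem harm_d (h : K.Alg) (hb : K.KIb) {a : S} (h0 : a ∈ Hm K) : X.d a = 0 ∧ K.ds a = 0 := by
  have h1 := hb.dir a
  rw [show (X.d + K.ds) a = 0 from h0, hb.zero] at h1
  exact ⟨nrm0 h hb (by nlinarith [sq_nonneg (K.nrm (X.d a)), sq_nonneg (K.nrm (K.ds a))]),
    nrm0 h hb (by nlinarith [sq_nonneg (K.nrm (X.d a)), sq_nonneg (K.nrm (K.ds a))])⟩

theorem harm (h : K.Alg) (hb : K.KIb) {a : S} (h0 : a ∈ Hm K) :
    K.A a = 0 ∧ K.Ab a = 0 ∧ K.As a = 0 ∧ K.Abs a = 0 := by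
  obtain ⟨h1, h2⟩ := harm_d h hb h0
  have h3 := hb.lapA a
  have h4 := hb.lapAb a
  rw [h1, h2, hb.zero] at h3 h4
  exact ⟨nrm0 h hb (by nlinarith [sq_nonneg (K.nrm (K.A a)), sq_nonneg (K.nrm (K.As a))]),
    nrm0 h hb (by nlinarith [sq_nonneg (K.nrm (K.Ab a)), sq_nonneg (K.nrm (K.Abs a))]),
    nrm0 h hb (by nlinarith [sq_nonneg (K.nrm (K.A a)), sq_nonneg (K.nrm (K.As a))]),
    nrm0 h hb (by nlinarith [sq_nonneg (K.nrm (K.Ab a)), sq_nonneg (K.nrm (K.Abs a))])⟩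

/-- if `T T' T g = 0` then `T g = 0` -/
theorem kill (h : K.Alg) (ha : K.KIa) {T T' : Module.End ℂ S} (hT : Ab0b.Adj K T T') {g : S}
    (h0 : T (T' (T g)) = 0) : T g = 0 := by
  have h1 : T' (T g) = 0 := h.defn _ (by rw [← hT, h0, Ab0b.ip_zero_r ha])
  exact h.defn _ (by rw [hT, h1, Ab0b.ip_zero_l ha])

/-- decomposition of `T` closed forms -/
theorem dec (h : K.Alg) (ha : K.KIa) {T T' : Module.End ℂ S} (hT : Ab0b.Adj K T T')
    (TT : ∀ a, T (T a) = 0) {a k g : S} (hk : T k = 0) (h0 : T a = 0)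
    (e : a = k + (T' (T g) + T (T' g))) : T g = 0 ∧ a = k + T (T' g) := by
  have h1 : T g = 0 := kill h ha hT (by
    rw [e, map_add, map_add, hk, TT, zero_add, add_zero] at h0
    exact h0)
  exact ⟨h1, by rw [e, h1, map_zero, zero_add]⟩

theorem orth (h : K.Alg) (ha : K.KIa) {T T' : Module.End ℂ S} (hT : Ab0b.Adj K T T') {k b : S}
    (hk : T' k = 0) (e : k = T b) : k = 0 :=
  h.defn _ (by
    nth_rw 2 [e]
    rw [hT, hk, Ab0b.ip_zero_l ha])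

/-- the general form of the lemma -/
theorem ddb (h : K.OK) (ha : K.KIa) (hb : K.KIb) (hd : HD K) {a b c : S} (h1 : K.A a = 0)
    (h2 : K.Ab a = 0) (e : a = K.A b + K.Ab c) : ∃ y, a = K.A (K.Ab y) := by
  obtain ⟨k, hk, g, hg⟩ := hd.2 a
  obtain ⟨k1, k2, k3, k4⟩ := harm h.alg hb hk
  obtain ⟨g1, e1⟩ := dec h.alg ha ha.adjA (KP.app0 ha.AA) k1 h1 (sqA h.cx h.alg ha g ▸ hg)
  obtain ⟨g2, -⟩ := dec h.alg ha ha.adjAb (KP.app0 ha.AbAb) k2 h2 (sqAb h.cx h.alg ha g ▸ hg)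
  have k0 : k = 0 := h.alg.defn _ (by
    have e2 : k = K.A (b - K.As ((2 : ℂ) • g)) + K.Ab c := by
      rw [map_sub, sub_add_eq_add_sub, ← e, e1, add_sub_cancel_right]
    nth_rw 2 [e2]
    rw [ha.ip_add_r, ha.adjA, ha.adjAb, k3, k4, Ab0b.ip_zero_l ha, Ab0b.ip_zero_l ha, add_zero])
  refine ⟨(-Complex.I) • K.Lm ((2 : ℂ) • g), ?_⟩
  rw [e1, k0, zero_add, KP.As, LinearMap.smul_apply, LinearMap.sub_apply, Module.End.mul_apply,
    Module.End.mul_apply, g2, map_zero, zero_sub, map_smul K.Ab, smul_neg, neg_smul]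

end Dda

open Dda in
/-- row DDA -/
theorem dda : DDA := by
  intro S _ _ D X K h ha hb hd
  have hdec : ∀ a, X.d a = 0 → ∃ k ∈ Hm K, ∃ b, a = k + X.d b := fun a h0 => by
    obtain ⟨k, hk, g, hg⟩ := hd.2 a
    exact ⟨k, hk, _, (dec h.alg ha ha.adjd h.cx.dd (harm_d h.alg hb hk).1 h0
      ((sqD h.cx h.alg ha g ▸ hg :))).2⟩
  refine ⟨⟨ha.AA, ha.AbAb, ha.AAb, fun b h0 => ?_, fun b h0 => ?_⟩, fun k hk => harm h.alg hb hk,
    fun a h0 => ?_, fun a h0 => ?_, hdec, fun k hk b e => ?_, fun z hz => ?_⟩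
  · exact ddb h ha hb hd h0 (KP.app0 ha.AbAb b) (b := 0) (c := b) (by rw [map_zero, zero_add])
  · exact ddb h ha hb hd (KP.app0 ha.AA b) h0 (b := b) (c := 0) (by rw [map_zero, add_zero])
  · obtain ⟨k, hk, g, hg⟩ := hd.2 a
    exact ⟨k, hk, _, (dec h.alg ha ha.adjA (KP.app0 ha.AA) (harm h.alg hb hk).1 h0
      (sqA h.cx h.alg ha g ▸ hg)).2⟩
  · obtain ⟨k, hk, g, hg⟩ := hd.2 a
    exact ⟨k, hk, _, (dec h.alg ha ha.adjAb (KP.app0 ha.AbAb) (harm h.alg hb hk).2.1 h0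
      (sqAb h.cx h.alg ha g ▸ hg)).2⟩
  · obtain ⟨-, -, k3, k4⟩ := harm h.alg hb hk
    rcases e with e | e | e
    · exact orth h.alg ha ha.adjA k3 e
    · exact orth h.alg ha ha.adjAb k4 e
    · exact orth h.alg ha ha.adjd (harm_d h.alg hb hk).2 e
  · obtain ⟨k, hk, b, e⟩ := hdec z hz.1
    obtain ⟨k1, k2⟩ := harm_d h.alg hb hk
    have hr : K.Rep z fun _ => k := ⟨hb.har_const k1 k2, hz.1, fun _ => -b, hb.nf_zero fun _ => by
      rw [e, map_neg]; abel⟩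
    have hn := (hb.nul h ha hr).1 hz
    have k0 : k = 0 := nrm0 h.alg hb (tendsto_nhds_unique tendsto_const_nhds hn)
    exact ⟨b, by rw [e, k0, zero_add]⟩

end Vale.Agent.P275FM
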