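import Mathlib.Algebra.Module.Submodule.Range
import Mathlib.Algebra.Module.Submodule.Ker
import Mathlib.Algebra.BigOperators.Group.Finset.Basic
import Mathlib.Algebra.Module.LinearMap.End
import Mathlib.Data.Complex.Basic
import Mathlib.LinearAlgebra.Complex.Module
import Mathlib.Tactic.Abel

/-!
# P275, mixed Hodge block: formality of a total complex

`A`, `B` play the role of del and delbar, `δ` is the Cech differential of an arrangement,
`dg q` is the projector on the forms of degree `q`.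
-/

noncomputable section

namespace Vale.Agent.P275FM

open Finset

variable {T : Type*} [AddCommGroup T] [Module ℂ T]

variable (T) in
/-- three differentials and a grading -/
structure Tri where
  A : Module.End ℂ T
  B : Module.End ℂ T
  δ : Module.End ℂ T
  dg : ℕ → Module.End ℂ T

namespace Tri

variable (X : Tri T)

/-- the total differential -/
def D : Module.End ℂ T := X.A + X.B + X.δ

/-- the axioms -/
structure OK : Prop where
  AA : ∀ a, X.A (X.A a) = 0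
  BB : ∀ a, X.B (X.B a) = 0
  δδ : ∀ a, X.δ (X.δ a) = 0
  AB : ∀ a, X.A (X.B a) = -X.B (X.A a)
  Aδ : ∀ a, X.A (X.δ a) = -X.δ (X.A a)
  Bδ : ∀ a, X.B (X.δ a) = -X.δ (X.B a)
  dg_mul : ∀ j k a, X.dg j (X.dg k a) = if j = k then X.dg k a else 0
  dg_sum : ∃ N, ∀ a, ∑ q ∈ range N, X.dg q a = a
  dgA : ∀ q a, X.dg (q + 1) (X.A a) = X.A (X.dg q a)
  dg0A : ∀ a, X.dg 0 (X.A a) = 0
  dgB : ∀ q a, X.dg (q + 1) (X.B a) = X.B (X.dg q a)
  dg0B : ∀ a, X.dg 0 (X.B a) = 0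
  dgδ : ∀ q a, X.dg q (X.δ a) = X.δ (X.dg q a)
  l1 : ∀ b, X.A (X.B b) = 0 → ∃ c, X.B b = X.A (X.B c)
  l2 : ∀ b, X.B (X.A b) = 0 → ∃ c, X.A b = X.A (X.B c)

/-- elements of form degree `< n` -/
def lt (n : ℕ) : Submodule ℂ T where
  carrier := {b | ∀ q, n ≤ q → X.dg q b = 0}
  add_mem' := fun ha hb q h => by rw [map_add, ha q h, hb q h, add_zero]
  zero_mem' := fun q _ => map_zero _
  smul_mem' := fun c a ha q h => by rw [map_smul, ha q h, smul_zero]

theorem D_apply (a : T) : X.D a = X.A a + X.B a + X.δ a := rfl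

variable {X}

theorem mem_lt {n : ℕ} {b : T} : b ∈ X.lt n ↔ ∀ q, n ≤ q → X.dg q b = 0 := Iff.rfl

theorem lt_mono {m n : ℕ} (h : m ≤ n) : X.lt m ≤ X.lt n := fun _ hb q hq => hb q (h.trans hq)

namespace OK

variable (h : X.OK)
include h

theorem AD (a : T) : X.A (X.D a) = -X.D (X.A a) := by
  simp only [D_apply, map_add, h.AA, h.AB, h.Aδ]
  abel

theorem DD0 (a : T) : X.D (X.D a) = 0 := by
  simp only [D_apply, map_add, h.AA, h.AB, h.Aδ, h.BB, h.Bδ, h.δδ]
  abel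

theorem lt_zero {b : T} (hb : b ∈ X.lt 0) : b = 0 := by
  obtain ⟨N, hN⟩ := h.dg_sum
  rw [← hN b]
  exact sum_eq_zero fun q _ => hb q (Nat.zero_le q)

theorem lt_top : ∃ N, ∀ b, b ∈ X.lt N := by
  obtain ⟨N, hN⟩ := h.dg_sum
  refine ⟨N, fun b q hq => ?_⟩
  rw [← hN b, map_sum]
  exact sum_eq_zero fun j hj => by
    rw [h.dg_mul, if_neg (by have := mem_range.1 hj; omega)]

theorem dg_lt {j n : ℕ} (hj : j < n) (a : T) : X.dg j a ∈ X.lt n := fun q hq => by
  rw [h.dg_mul, if_neg (by omega)]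

theorem sum_lt {n : ℕ} {b : T} (hb : b ∈ X.lt n) : ∑ q ∈ range n, X.dg q b = b := by
  obtain ⟨N, hN⟩ := h.dg_sum
  have hbN : b ∈ X.lt N := fun q hq => by
    rw [← hN b, map_sum]
    exact sum_eq_zero fun j hj => by
      rw [h.dg_mul, if_neg (by have := mem_range.1 hj; omega)]
  have e1 : ∑ q ∈ range n, X.dg q b = ∑ q ∈ range (n + N), X.dg q b :=
    sum_subset (range_subset_range.2 (by omega)) fun q _ hq => hb q (by simpa using hq)
  have e2 : ∑ q ∈ range N, X.dg q b = ∑ q ∈ range (n + N), X.dg q b :=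
    sum_subset (range_subset_range.2 (by omega)) fun q _ hq => hbN q (by simpa using hq)
  rw [e1, ← e2, hN]

theorem A_lt {n : ℕ} {b : T} (hb : b ∈ X.lt n) : X.A b ∈ X.lt (n + 1) := fun q hq => by
  obtain ⟨q, rfl⟩ : ∃ r, q = r + 1 := ⟨q - 1, by omega⟩
  rw [h.dgA, hb q (by omega), map_zero]

theorem B_lt {n : ℕ} {b : T} (hb : b ∈ X.lt n) : X.B b ∈ X.lt (n + 1) := fun q hq => by
  obtain ⟨q, rfl⟩ : ∃ r, q = r + 1 := ⟨q - 1, by omega⟩
  rw [h.dgB, hb q (by omega), map_zero]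

theorem δ_lt {n : ℕ} {b : T} (hb : b ∈ X.lt n) : X.δ b ∈ X.lt n := fun q hq => by
  rw [h.dgδ, hb q hq, map_zero]

theorem D_lt {n : ℕ} {b : T} (hb : b ∈ X.lt n) : X.D b ∈ X.lt (n + 1) :=
  add_mem (add_mem (h.A_lt hb) (h.B_lt hb)) (lt_mono (Nat.le_succ n) (h.δ_lt hb))

/-- a preimage under `A` of an element of degree `< n + 1` can be taken of degree `< n` -/
theorem A_pre {n : ℕ} {b : T} (hb : X.A b ∈ X.lt (n + 1)) : ∃ c ∈ X.lt n, X.A c = X.A b := by
  refine ⟨∑ q ∈ range n, X.dg q b, sum_mem fun q hq => h.dg_lt (mem_range.1 hq) b, ?_⟩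
  rw [← h.sum_lt hb, sum_range_succ', h.dg0A, add_zero, map_sum]
  exact sum_congr rfl fun q _ => (h.dgA q b).symm

/-- `B a` is `A B` exact when `a` is `A` closed -/
theorem B_ex {a : T} (ha : X.A a = 0) : ∃ e, X.B a = X.A (X.B e) :=
  h.l1 a (by rw [h.AB, ha, map_zero, neg_zero])

/-- `A` closed elements are `B` closed up to `A` exact ones -/
theorem both {a : T} (ha : X.A a = 0) : ∃ e, X.B (a + X.A e) = 0 := by
  obtain ⟨e, he⟩ := h.B_ex ha
  exact ⟨e, by rw [map_add, he, h.AB, neg_add_cancel]⟩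

/-- the key lemma -/
theorem key (n : ℕ) : ∀ b ∈ X.lt (n + 1), X.A (X.D b) = 0 →
    ∃ e ∈ X.lt n, X.A (b - X.D e) = 0 := by
  have top : ∀ n, ∀ b ∈ X.lt (n + 1), X.A (X.D b) = 0 → ∃ e, X.A (X.dg n b) = X.A (X.B e) := by
    intro n b hb h0
    have h1 := congrArg (X.dg (n + 1 + 1)) h0
    rw [h.dgA, D_apply, map_add (X.dg _), map_add (X.dg _), h.dgA, h.dgB, h.dgδ,
      hb (n + 1) le_rfl, map_zero, map_zero, add_zero, map_add, h.AA, zero_add, h.AB,
      neg_eq_zero] at h1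
    exact h.l2 _ h1
  induction n with
  | zero =>
    intro b hb h0
    obtain ⟨e, he⟩ := top 0 b hb h0
    refine ⟨0, zero_mem _, ?_⟩
    have h1 := congrArg (X.dg (0 + 1)) he
    rw [h.dgA, h.dgA, h.dg0B, map_zero, h.dg_mul, if_pos rfl] at h1
    rw [map_zero, sub_zero, ← h.sum_lt hb, sum_range_one, h1]
  | succ n ih =>
    intro b hb h0
    obtain ⟨e, he⟩ := top (n + 1) b hb h0
    have h1 := congrArg (X.dg (n + 1 + 1)) he
    rw [h.dgA, h.dgA, h.dgB, h.dg_mul, if_pos rfl] at h1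
    set e0 := X.dg n e with he0
    have l0 : e0 ∈ X.lt (n + 1) := h.dg_lt (Nat.lt_succ_self n) e
    have g0 : X.dg n e0 = e0 := by rw [he0, h.dg_mul, if_pos rfl]
    set k := X.dg (n + 1) (b - X.D e0) with hk
    have Ak : X.A k = 0 := by
      rw [hk, map_sub, D_apply, map_add, map_add, h.dgA, h.dgB, h.dgδ, l0 (n + 1) le_rfl, g0,
        map_zero, add_zero, map_sub, map_add, h.AA, zero_add, h1, sub_self]
    have l1 : b - X.D e0 ∈ X.lt (n + 1 + 1) := sub_mem hb (h.D_lt l0)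
    have l2 : b - X.D e0 - k ∈ X.lt (n + 1) := fun q hq => by
      rw [map_sub, hk, h.dg_mul]
      split_ifs with e1
      · rw [e1, sub_self]
      · rw [l1 q (by omega), sub_self]
    obtain ⟨e1, l3, h3⟩ := ih _ l2 (by
      rw [map_sub X.D, map_sub X.D, h.DD0, sub_zero, map_sub, h0, h.AD, Ak, map_zero, neg_zero,
        sub_self])
    refine ⟨e0 + e1, add_mem l0 (lt_mono (Nat.le_succ n) l3), ?_⟩
    rw [show b - X.D (e0 + e1) = b - X.D e0 - k - X.D e1 + k by rw [map_add]; abel, map_add, h3,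
      Ak, add_zero]

theorem key' {b : T} (h0 : X.A (X.D b) = 0) : ∃ e, X.A (b - X.D e) = 0 := by
  obtain ⟨N, hN⟩ := h.lt_top
  obtain ⟨e, -, he⟩ := h.key N b (lt_mono (Nat.le_succ N) (hN b)) h0
  exact ⟨e, he⟩

/-- F1: every cocycle is cohomologous to an `A` closed one -/
theorem f1 {z : T} (hz : X.D z = 0) : ∃ e, X.A (z - X.D e) = 0 :=
  h.key' (by rw [hz, map_zero])

theorem f1_lt {n : ℕ} {z : T} (hn : z ∈ X.lt (n + 1)) (hz : X.D z = 0) :
    ∃ e ∈ X.lt n, X.A (z - X.D e) = 0 :=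
  h.key n z hn (by rw [hz, map_zero])

/-- F2: an `A` closed coboundary is the coboundary of an `A` closed element -/
theorem f2 {y : T} (hy : X.A (X.D y) = 0) : ∃ y', X.A y' = 0 ∧ X.D y' = X.D y := by
  obtain ⟨e, he⟩ := h.key' hy
  exact ⟨_, he, by rw [map_sub, h.DD0, sub_zero]⟩

/-- an `A` exact cocycle is a coboundary -/
theorem ex_A {b : T} (hb : X.D (X.A b) = 0) : ∃ e, X.A b = X.D (X.A e) := by
  obtain ⟨e, he⟩ := h.key' (b := b) (by rw [h.AD, hb, neg_zero])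
  refine ⟨-e, ?_⟩
  rw [map_sub, sub_eq_zero, h.AD] at he
  rw [he, map_neg, map_neg]

theorem D_closed {a : T} (ha : X.A a = 0) {c : T} (hc : X.δ a = X.A c) :
    ∃ b, X.D a = X.A b := by
  obtain ⟨e, he⟩ := h.B_ex ha
  exact ⟨X.B e + c, by rw [D_apply, ha, zero_add, he, hc, map_add]⟩

/-- F3 with degree control: lifting of `δ` closed classes -/
theorem f3_lt {n : ℕ} {a : T} (hn : a ∈ X.lt (n + 1)) (ha : X.A a = 0) {c : T}
    (hc : X.δ a = X.A c) : ∃ e ∈ X.lt n, X.D (a + X.A e) = 0 := by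
  obtain ⟨b, hb⟩ := h.D_closed ha hc
  obtain ⟨b', l, hb'⟩ := h.A_pre (b := b) (hb ▸ h.D_lt hn)
  obtain ⟨e, l', he⟩ := h.key n b' l (by rw [h.AD, hb', ← hb, h.DD0, neg_zero])
  refine ⟨e, l', ?_⟩
  rw [map_sub, sub_eq_zero, h.AD, hb', ← hb] at he
  rw [map_add, he, neg_add_cancel]

/-- F3 -/
theorem f3 {a : T} (ha : X.A a = 0) {c : T} (hc : X.δ a = X.A c) : ∃ e, X.D (a + X.A e) = 0 := by
  obtain ⟨N, hN⟩ := h.lt_top
  obtain ⟨e, -, he⟩ := h.f3_lt (lt_mono (Nat.le_succ N) (hN a)) ha hc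
  exact ⟨e, he⟩

/-- for an `A` closed cocycle the `δ` coboundary is `A` exact -/
theorem δ_ex {z : T} (ha : X.A z = 0) (hz : X.D z = 0) : ∃ c, X.δ z = X.A c := by
  obtain ⟨e, he⟩ := h.B_ex ha
  rw [D_apply, ha, zero_add, he] at hz
  exact ⟨-X.B e, by rw [map_neg, eq_neg_of_add_eq_zero_right hz]⟩

/-- F4: description of the `A` closed coboundaries -/
theorem f4 {z : T} (ha : X.A z = 0) (hz : X.D z = 0) :
    (∃ y, z = X.D y) ↔ ∃ β c, X.A β = 0 ∧ z = X.δ β + X.A c := by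
  constructor
  · rintro ⟨y, rfl⟩
    obtain ⟨y', h1, h2⟩ := h.f2 ha
    obtain ⟨e, he⟩ := h.B_ex h1
    exact ⟨y', X.B e, h1, by rw [← h2, D_apply, h1, zero_add, he, add_comm]⟩
  · rintro ⟨β, c, h1, h2⟩
    obtain ⟨e, he⟩ := h.B_ex h1
    have h3 : X.A (c - X.B e) = z - X.D β := by
      rw [map_sub, h2, D_apply, h1, he]
      abel
    obtain ⟨e', he'⟩ := h.ex_A (b := c - X.B e) (by rw [h3, map_sub, hz, h.DD0, sub_zero])
    exact ⟨β + X.A e', by rw [map_add, ← he', h3]; abel⟩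

end OK

end Tri

end Vale.Agent.P275FM
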